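import Vale.Agent.P231.TW.DegMap

/-!
# P231, stage 3, block B: change of the basis in an integral
-/

set_option linter.unusedSectionVars false
set_option linter.unusedVariables false

open Module MeasureTheory Set Metric Filter
open scoped ContDiff Topology

namespace Vale.Agent.P231.S3B

open Fm WA TW

variable {X : Type*} [NormedAddCommGroup X] [NormedSpace ℝ X] [FiniteDimensional ℝ X]
  [MeasurableSpace X] [BorelSpace X]

/-- **the integral of a top form does not depend on the basis, up to sign** -/
theorem JJ_basis {N : ℕ} (b b' : Basis (Fin N) ℝ X) :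
    ∃ s : ℝ, (s = 1 ∨ s = -1) ∧ ∀ w : X → Lam X, JJ b' w = s * JJ b w := by
  let L : X ≃L[ℝ] X := (b.equiv b' (Equiv.refl _)).toContinuousLinearEquiv
  have hLb : ∀ i, L (b i) = b' i := fun i => by
    change (b.equiv b' (Equiv.refl _)) (b i) = b' i
    rw [Basis.equiv_apply]
    rfl
  have hL : b.map L.toLinearEquiv = b' := by
    refine Basis.eq_of_apply_eq fun i => ?_
    rw [Basis.map_apply]
    exact hLb i
  set d : ℝ := (L : X →L[ℝ] X).det with hd
  have hd0 : d ≠ 0 := by
    have h1 : IsUnit (LinearMap.det ((L : X ≃L[ℝ] X).toLinearEquiv : X →ₗ[ℝ] X)) :=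
      LinearEquiv.isUnit_det' _
    exact h1.ne_zero
  have hm : b'.addHaar = ENNReal.ofReal |d⁻¹| • b.addHaar := by
    rw [← hL, ← Basis.map_addHaar b L]
    exact Measure.map_linearMap_addHaar_eq_smul_addHaar b.addHaar (f := (L : X →ₗ[ℝ] X)) hd0
  have hv : ∀ w : Lam X, evalForm w b' = d * evalForm w b := fun w => by
    have h1 := evalForm_pull_det b (L : X →L[ℝ] X) w
    rw [← h1, evalForm_pull]
    congr 1
    funext i
    exact (hLb i).symm
  refine ⟨|d|⁻¹ * d, ?_, fun w => ?_⟩
  · rcases lt_or_gt_of_ne hd0 with h | h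
    · right
      rw [abs_of_neg h, inv_neg, neg_mul, inv_mul_cancel₀ hd0]
    · left
      rw [abs_of_pos h, inv_mul_cancel₀ hd0]
  · unfold JJ
    rw [hm, integral_smul_measure]
    simp only [hv]
    rw [integral_const_mul, ENNReal.toReal_ofReal (abs_nonneg _), abs_inv, smul_eq_mul]
    ring

end Vale.Agent.P231.S3B
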