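import Vale.Agent.P231.S3B.Prod3

/-!
# P231, stage 3, block B: fibre integrals of closed forms of the degree of the fibre are constant
-/

set_option linter.unusedSectionVars false
set_option linter.unusedVariables false

open Module MeasureTheory Set Metric Filter
open scoped ContDiff Topology

namespace Vale.Agent.P231.S3B

open Fm WA TW
open Vale.Agent.P231.Q (pf ps slice_mul_pf aug_slice pull_inr_pf pull_inr_ps)

variable {X : Type*} [NormedAddCommGroup X] [NormedSpace ℝ X] [FiniteDimensional ℝ X]
variable {H : Type*} [NormedAddCommGroup H] [NormedSpace ℝ H] [FiniteDimensional ℝ H]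
  [MeasurableSpace H] [BorelSpace H]

theorem prt_cont' {V : Type*} [NormedAddCommGroup V] [NormedSpace ℝ V] [FiniteDimensional ℝ V]
    {k : ℕ} (j : ℕ) (v : Fin k → V) (w : Lam V) : prt j (cont v w) = cont v (prt (j + k) w) := by
  induction k generalizing w with
  | zero => rfl
  | succ k ih => rw [cont_succ, cont_succ, ih, prt_iprod, add_assoc]

theorem slice_top {l : ℕ} (v : Fin l → H) {w : Lam (X × H)} (hw : prt l w = w) :
    slice v w = algebraMap ℝ (Lam X)
      (evalForm (Fm.pull (ContinuousLinearMap.inr ℝ X H) w) v) := by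
  have h1 : prt 0 (slice v w) = slice v w := by
    rw [slice_apply, prt_pull, prt_cont', zero_add, hw]
  rw [← h1, prt_zero, aug_slice]

/-- **the fibre integral of a closed form of the degree of the fibre is constant** -/
theorem JJ_const {l : ℕ} (bH : Basis (Fin l) ℝ H) {w : X × H → Lam (X × H)}
    (hs : ContDiff ℝ ∞ w) (hk : ∀ z, prt l (w z) = w z) (hd : ∀ z, extd w z = 0) {K' : Set H}
    (hK' : IsCompact K') (h0 : ∀ x, ∀ y ∉ K', w (x, y) = 0) (x x' : X) :
    JJ bH (fun y => Fm.pull (ContinuousLinearMap.inr ℝ X H) (w (x, y))) =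
      JJ bH (fun y => Fm.pull (ContinuousLinearMap.inr ℝ X H) (w (x', y))) := by
  set c : X → ℝ := fun x =>
    JJ bH (fun y => Fm.pull (ContinuousLinearMap.inr ℝ X H) (w (x, y))) with hc
  have hf : fib bH.addHaar (⇑bH) w = fn c := by
    funext x
    have h1 : ∀ y, slice (⇑bH) (w (x, y)) = algebraMap ℝ (Lam X)
        (evalForm (Fm.pull (ContinuousLinearMap.inr ℝ X H) (w (x, y))) bH) := fun y =>
      slice_top _ (hk (x, y))
    rw [fib, fn]
    simp only [h1, Algebra.algebraMap_eq_smul_one]
    rw [integral_smul_const]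
    rfl
  have hcd : ContDiff ℝ ∞ c := by
    have h1 := contDiffOn_fib bH.addHaar isOpen_univ hK' (⇑bH) (n := ⊤)
      (hs.contDiffOn (s := univ ×ˢ univ)) (fun x _ y hy => h0 x y hy)
    rw [hf, contDiffOn_univ] at h1
    have h2 : c = fun x => Fm.aug (fn c x) := by
      funext x
      rw [fn, AlgHom.commutes]
      rfl
    rw [h2]
    exact (LinearMap.toContinuousLinearMap (Fm.aug : Lam X →ₐ[ℝ] ℝ).toLinearMap).contDiff.comp h1
  have hder : ∀ x, fderiv ℝ c x = 0 := by
    intro x
    have h1 := extd_fib bH.addHaar isOpen_univ hK' (⇑bH)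
      ((hs.of_le (by simp)).contDiffOn (s := univ ×ˢ univ)) (fun x _ y hy => h0 x y hy)
      (mem_univ x)
    have h2 : fib bH.addHaar (⇑bH) (extd w) x = 0 := by
      rw [fib]
      simp only [hd, map_zero, integral_zero]
    rw [h2, hf, extd_fn (hcd.differentiable (by simp) x)] at h1
    have h3 : dx (fderiv ℝ c x) = 0 := by
      rcases smul_eq_zero.1 h1.symm with h | h
      · exact absurd h (pow_ne_zero _ (by norm_num))
      · exact h
    refine ContinuousLinearMap.ext fun u => ?_
    have h4 := congrArg (fun g => Fm.aug (iprod u g)) h3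
    simp only [map_zero] at h4
    rw [← mul_one (dx (fderiv ℝ c x)), iprod_dx_mul] at h4
    simpa using h4
  exact is_const_of_fderiv_eq_zero (hcd.differentiable (by simp)) hder x x'

end Vale.Agent.P231.S3B
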