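import Vale.Agent.P231.S3B.Four
import Vale.Agent.P231.S3B.Const
import Vale.Agent.P231.S3B.Bas

/-!
# P231, stage 3, block B: the value of `t₂` on a box with three fibre variables
-/

set_option linter.unusedSectionVars false
set_option linter.unusedVariables false

open Module MeasureTheory Set Metric Filter
open scoped ContDiff Topology

namespace Vale.Agent.P231.S3B

open Fm W H584 WA TW
open Vale.Agent.P231.Q (pf ps)

section Thin

variable {X : Type*} {D : Dif X}
variable {V : Type} [NormedAddCommGroup V] [NormedSpace ℝ V] [FiniteDimensional ℝ V]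

theorem at_glob {G : V → X} (hG : (Dif.lin V).Map D G) (z : V) : D.At G z :=
  hG (u := id) (Sm.of_contDiff contDiff_id z)

/-- near `z` the plot factors through a space of dimension at most `m` -/
def Thn (D : Dif X) (G : V → X) (m : ℕ) (z : V) : Prop :=
  ∃ (W : Type) (_ : NormedAddCommGroup W) (_ : NormedSpace ℝ W) (_ : FiniteDimensional ℝ W)
    (v : W → X) (g : V → W), finrank ℝ W ≤ m ∧ Sm g z ∧ D.At v (g z) ∧ G =ᶠ[𝓝 z] v ∘ g

theorem Thn.prt {G : V → X} {m : ℕ} {z : V} (h : Thn D G m z) (hG : D.At G z) (w : Form D) {k : ℕ}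
    (hk : m < k) : prt k (w.val G z) = 0 := by
  obtain ⟨W, _, _, _, v, g, hW, hg, hv, he⟩ := h
  rw [w.congr hG he, w.nat hv hg, prt_pull, prt_eq_zero (by omega), map_zero]

theorem Thn.mono {G : V → X} {m m' : ℕ} {z : V} (h : Thn D G m z) (hm : m ≤ m') :
    Thn D G m' z := by
  obtain ⟨W, i1, i2, i3, v, g, hW, hg, hv, he⟩ := h
  exact ⟨W, i1, i2, i3, v, g, hW.trans hm, hg, hv, he⟩

/-- a global plot which is thin outside a compact set -/
structure Bx (D : Dif X) (G : V → X) (K : Set V) (m : ℕ) : Prop where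
  map : (Dif.lin V).Map D G
  cpt : IsCompact K
  thin : ∀ z ∉ K, Thn D G m z

namespace Bx

variable {G : V → X} {K : Set V} {m : ℕ} (h : Bx D G K m)
include h

theorem smooth (w : Form D) : ContDiff ℝ ∞ (w.val G) :=
  contDiff_iff_contDiffAt.2 fun z => w.smooth (at_glob h.map z)

variable [MeasurableSpace V] [BorelSpace V] {N : ℕ} (b : Basis (Fin N) ℝ V)

theorem evalForm_out (hm : m < N) (w : Form D) {z : V} (hz : z ∉ K) :
    evalForm (w.val G z) b = 0 := by
  rw [← evalForm_prt, (h.thin z hz).prt (at_glob h.map z) w hm]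
  exact Q.evalForm_zero _

theorem integrable (hm : m < N) (w : Form D) :
    Integrable (fun z => evalForm (w.val G z) b) b.addHaar := by
  have h2 : Continuous fun z => evalForm (w.val G z) b :=
    (evalL b).continuous.comp (h.smooth w).continuous
  exact h2.integrable_of_hasCompactSupport (HasCompactSupport.intro h.cpt fun z hz =>
    h.evalForm_out b hm w hz)

/-- the integral over the box -/
noncomputable def II (hm : m < N) : Form D →ₗ[ℝ] ℝ where
  toFun w := JJ b (fun z => w.val G z)
  map_add' v w := by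
    unfold JJ
    rw [← integral_add (h.integrable b hm v) (h.integrable b hm w)]
    refine integral_congr_ae (Eventually.of_forall fun x => ?_)
    exact Q.evalForm_add _ _ _
  map_smul' c w := by
    unfold JJ
    rw [RingHom.id_apply, smul_eq_mul, ← integral_const_mul]
    refine integral_congr_ae (Eventually.of_forall fun x => ?_)
    exact Q.evalForm_smul _ _ _

theorem II_apply (hm : m < N) (w : Form D) : h.II b hm w = JJ b (fun z => w.val G z) := rfl

/-- Stokes -/
theorem II_d (hm : m + 2 ≤ N) (w : Form D) : h.II b (by omega) w.d = 0 := by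
  rw [II_apply]
  have h1 : ∀ z, w.d.val G z = extd (w.val G) z := fun z => Form.d_val w (at_glob h.map z)
  rw [JJ_congr b h1]
  refine JJ_extd' (k := N - 1) (by omega) b ((h.smooth w).of_le (by simp)) h.cpt fun z hz => ?_
  exact (h.thin z hz).prt (at_glob h.map z) w (by omega)

end Bx

/-- the forms whose values on a plot come from a smaller space -/
def rgA (G : V → X) (hG : ∀ z, D.At G z) {V' : Type*} [NormedAddCommGroup V'] [NormedSpace ℝ V']
    [FiniteDimensional ℝ V'] (q : V →L[ℝ] V') : Subalgebra ℝ (Form D) where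
  carrier := {w | ∀ z, w.val G z ∈ (Fm.pull q).range}
  mul_mem' ha hb z := by
    rw [Form.mul_val]
    exact mul_mem (ha z) (hb z)
  add_mem' ha hb z := by
    rw [Form.add_val]
    exact add_mem (ha z) (hb z)
  algebraMap_mem' r z := by
    rw [Algebra.algebraMap_eq_smul_one, Form.smul_val, Form.one_val (hG z)]
    exact Subalgebra.smul_mem _ (one_mem _) r

theorem mem_rgA {G : V → X} {hG : ∀ z, D.At G z} {V' : Type*} [NormedAddCommGroup V']
    [NormedSpace ℝ V'] [FiniteDimensional ℝ V'] {q : V →L[ℝ] V'} {w : Form D} :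
    w ∈ rgA G hG q ↔ ∀ z, w.val G z ∈ (Fm.pull q).range := Iff.rfl

theorem JJ_rgA [MeasurableSpace V] [BorelSpace V] {N : ℕ} (b : Basis (Fin N) ℝ V) {G : V → X}
    {hG : ∀ z, D.At G z} {V' : Type*} [NormedAddCommGroup V'] [NormedSpace ℝ V']
    [FiniteDimensional ℝ V'] {q : V →L[ℝ] V'} (hN : finrank ℝ V' < N) {w : Form D}
    (hw : w ∈ rgA G hG q) : JJ b (fun z => w.val G z) = 0 := by
  refine JJ_zero b fun z => ?_
  obtain ⟨a, ha⟩ := hw z
  rw [← evalForm_prt]
  have h1 : w.val G z = Fm.pull q a := ha.symm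
  rw [h1, prt_pull, prt_eq_zero hN, map_zero]
  exact Q.evalForm_zero _

end Thin

end Vale.Agent.P231.S3B
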