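import Vale.Agent.P231.S3B.Box
import Vale.Agent.P231.Co.Gys

/-!
# P231, stage 3, block B: the value of `t₂` on a box with three fibre variables
-/

set_option linter.unusedSectionVars false
set_option linter.unusedVariables false

open Module MeasureTheory Set Metric Filter
open scoped ContDiff Topology

namespace Vale.Agent.P231.S3B

open Fm W H584 WA TW
open Vale.Agent.P231.Q (pf ps)

variable {Z H : Type} [NormedAddCommGroup Z] [NormedSpace ℝ Z] [FiniteDimensional ℝ Z]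
  [MeasurableSpace Z] [BorelSpace Z] [NormedAddCommGroup H] [NormedSpace ℝ H]
  [FiniteDimensional ℝ H] [MeasurableSpace H] [BorelSpace H]

variable {Y U M X : Type*} {D : Dif Y} {DU : Dif U} {DM : Dif M} {DX : Dif X}

/-- forget the variable `k` -/
def fg (k : Fin 3) : Z × (H × (H × H)) →L[ℝ] Z × (H × H) :=
  (ContinuousLinearMap.fst ℝ Z (H × (H × H))).prod
    (match k with
    | 0 => (ContinuousLinearMap.snd ℝ H (H × H)).comp (ContinuousLinearMap.snd ℝ Z (H × (H × H)))
    | 1 => ((ContinuousLinearMap.fst ℝ H (H × H)).prod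
        ((ContinuousLinearMap.snd ℝ H H).comp (ContinuousLinearMap.snd ℝ H (H × H)))).comp
          (ContinuousLinearMap.snd ℝ Z (H × (H × H)))
    | 2 => ((ContinuousLinearMap.fst ℝ H (H × H)).prod
        ((ContinuousLinearMap.fst ℝ H H).comp (ContinuousLinearMap.snd ℝ H (H × H)))).comp
          (ContinuousLinearMap.snd ℝ Z (H × (H × H))))

/-- the variable `i` (and the base) -/
def pj (i : Fin 3) : Z × (H × (H × H)) →L[ℝ] Z × H :=
  match i with
  | 0 => p1
  | 1 => p2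
  | 2 => p3

theorem pj_fac (k i : Fin 3) (h : i ≠ k) :
    ∃ L : Z × (H × H) →L[ℝ] Z × H, pj i = L.comp (fg k) := by
  have l1 : Z × (H × H) →L[ℝ] Z × H := (ContinuousLinearMap.fst ℝ Z (H × H)).prod
    ((ContinuousLinearMap.fst ℝ H H).comp (ContinuousLinearMap.snd ℝ Z (H × H)))
  fin_cases k <;> fin_cases i
  · exact absurd rfl h
  · exact ⟨(ContinuousLinearMap.fst ℝ Z (H × H)).prod
      ((ContinuousLinearMap.fst ℝ H H).comp (ContinuousLinearMap.snd ℝ Z (H × H))), rfl⟩
  · exact ⟨(ContinuousLinearMap.fst ℝ Z (H × H)).prod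
      ((ContinuousLinearMap.snd ℝ H H).comp (ContinuousLinearMap.snd ℝ Z (H × H))), rfl⟩
  · exact ⟨(ContinuousLinearMap.fst ℝ Z (H × H)).prod
      ((ContinuousLinearMap.fst ℝ H H).comp (ContinuousLinearMap.snd ℝ Z (H × H))), rfl⟩
  · exact absurd rfl h
  · exact ⟨(ContinuousLinearMap.fst ℝ Z (H × H)).prod
      ((ContinuousLinearMap.snd ℝ H H).comp (ContinuousLinearMap.snd ℝ Z (H × H))), rfl⟩
  · exact ⟨(ContinuousLinearMap.fst ℝ Z (H × H)).prod
      ((ContinuousLinearMap.fst ℝ H H).comp (ContinuousLinearMap.snd ℝ Z (H × H))), rfl⟩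
  · exact ⟨(ContinuousLinearMap.fst ℝ Z (H × H)).prod
      ((ContinuousLinearMap.snd ℝ H H).comp (ContinuousLinearMap.snd ℝ Z (H × H))), rfl⟩
  · exact absurd rfl h

theorem fst_fac (k : Fin 3) : ContinuousLinearMap.fst ℝ Z (H × (H × H)) =
    (ContinuousLinearMap.fst ℝ Z (H × H)).comp (fg k) := by
  fin_cases k <;> rfl

/-- the value of a form pulled back by a map which factors through a linear map on a plot -/
theorem val_fac {V W : Type} [NormedAddCommGroup V] [NormedSpace ℝ V] [FiniteDimensional ℝ V]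
    [NormedAddCommGroup W] [NormedSpace ℝ W] [FiniteDimensional ℝ W] {G : V → Y}
    (hG : (Dif.lin V).Map D G) {f : Y → U} (hf : D.Map DU f) {L : V →L[ℝ] W} {W' : W → U}
    (hW : (Dif.lin W).Map DU W') (h : ∀ z, f (G z) = W' (L z)) (w : Form DU) (z : V) :
    (Form.pull f hf w).val G z = Fm.pull L (w.val W' (L z)) := by
  rw [Form.pull_val hf w (at_glob hG z)]
  have h1 : (f ∘ G) = W' ∘ L := funext h
  rw [h1, w.nat (g := L) (x := z) (at_glob hW (L z)) (Sm.of_contDiff L.contDiff z), L.fderiv]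

section Main

variable {T : ℝ} {Φ : X × ℝ → X}

/-- **the value of `t₂` on a box** -/
theorem box_paths (hT : T ≠ 0) (h : IsFlow DX T Φ)
    {α : Form DX} (hα : Form.pull Φ h.map α = pr α + dt) (hαo : α.sg = -α)
    {ev : X → M} (hev : DX.Map DM ev) {F : Form DM} {l : ℕ} (hl : Odd l)
    (hF : Form.IsDeg (l + 1) F) (hFd : F.d = 0)
    {s : Y → X} (hs : D.Map DX s)
    -- the paths
    {g : U × ℝ → M} (hg : (DU.prod (Dif.lin ℝ)).Map DM g) {R : ℝ} {β : ℝ → ℝ}
    (hβ : ContDiff ℝ ∞ β) (hβ0 : β 0 = 0) (hβ1 : β 1 = R)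
    {βr : ℝ → ℝ} (hβr : ContDiff ℝ ∞ βr) (hβr0 : βr 0 = R) (hβr1 : βr 1 = 0)
    {u : Fin 4 → Y → U} (hu : ∀ i, D.Map DU (u i))
    (hst : ∀ i y, g (u i y, 0) = g (u 0 y, 0)) (hen : ∀ i y, g (u i y, R) = g (u 0 y, R))
    (h0 : ∀ y, ∀ r ∈ Ioo (0 : ℝ) 1, ev (Φ (s y, T / 4 * r)) = g (u 0 y, β r))
    (h1 : ∀ y, ∀ r ∈ Ioo (0 : ℝ) 1, ev (Φ (s y, T / 4 + T / 4 * r)) = g (u 1 y, βr r))
    (h2 : ∀ y, ∀ r ∈ Ioo (0 : ℝ) 1, ev (Φ (s y, T / 2 + T / 4 * r)) = g (u 2 y, β r))
    (h3 : ∀ y, ∀ r ∈ Ioo (0 : ℝ) 1, ev (Φ (s y, 3 * T / 4 + T / 4 * r)) = g (u 3 y, βr r))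
    -- the box
    (bX : Basis (Fin (l + 1)) ℝ Z) (bH : Basis (Fin l) ℝ H) {G : Z × (H × (H × H)) → Y}
    {K : Set (Z × (H × (H × H)))} {m : ℕ} (hm : m + 2 ≤ l + 1 + (l + (l + l)))
    (hG : Bx D G K m) {V0 : Z → U} (hV0 : (Dif.lin Z).Map DU V0) {W : Fin 3 → Z × H → U}
    (hW : ∀ i, (Dif.lin (Z × H)).Map DU (W i)) (e0 : ∀ z, u 0 (G z) = V0 z.1)
    (e1 : ∀ (i : Fin 3) z, u i.succ (G z) = W i (pj i z))
    -- supports
    {K1 : Set Z} (hK1 : IsCompact K1)
    (hc1 : ∀ x ∉ K1, F.val (fun x => g (V0 x, 0)) x = 0) {K' : Set H} (hK' : IsCompact K')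
    (hc2 : ∀ i x, ∀ y ∉ K', Fm.pull (ContinuousLinearMap.inr ℝ Z H)
      ((KT R (Form.pull g hg F)).val (W i) (x, y)) = 0)
    {c : Fin 3 → ℝ} (hc : ∀ i x, JJ bH (fun y => Fm.pull (ContinuousLinearMap.inr ℝ Z H)
      ((KT R (Form.pull g hg F)).val (W i) (x, y))) = c i) :
    JJ (pB bX (pB bH (pB bH bH)))
      (fun z => (Form.pull s hs (t2 2 Φ h.map T (Form.pull ev hev F))).val G z) =
      3 * (-(c 0 * c 1 * c 2) * JJ bX (fun x => F.val (fun x => g (V0 x, 0)) x)) := by
  have hl1 : 0 < l := hl.pos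
  have hFe : F.sg = F := hF.sg_of_even (by
    obtain ⟨j, rfl⟩ := hl
    exact ⟨j + 1, by ring⟩)
  have hZ : finrank ℝ Z = l + 1 := finrank_eq_card_basis bX |>.trans (Fintype.card_fin _)
  have hHH : finrank ℝ H = l := finrank_eq_card_basis bH |>.trans (Fintype.card_fin _)
  set b := pB bX (pB bH (pB bH bH)) with hb
  set B := KT R (Form.pull g hg F) with hB
  have hBd : Form.IsDeg l B := Co.isDeg_KT R (hF.pull g hg)
  let I := hG.II b (by omega)
  have hgl := at_glob hG.map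
  let A : Fin 3 → Subalgebra ℝ (Form D) := fun k => rgA G hgl (fg (Z := Z) (H := H) k)
  have hP0 : (Dif.lin Z).Map DM (fun x => g (V0 x, 0)) := fun {E} _ _ _ {v x} hv =>
    hg (Form.map_slice 0 (hV0 hv))
  -- the base form
  have hPval : ∀ z, (Form.pull (fun y => g (u 0 y, 0)) (map_end hg (hu 0) 0) F).val G z =
      pf (F.val (fun x => g (V0 x, 0)) z.1) := fun z =>
    val_fac (L := ContinuousLinearMap.fst ℝ Z (H × (H × H))) hG.map (map_end hg (hu 0) 0) hP0
      (fun z => by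
        rw [e0]
        rfl) F z
  have hBval : ∀ (i : Fin 3) z, (Form.pull (u i.succ) (hu i.succ) B).val G z =
      Fm.pull (pj i) (B.val (W i) (pj i z)) := fun i z =>
    val_fac hG.map (hu i.succ) (hW i) (e1 i) B z
  have key := four_paths' (V := ℝ) hT h hα hαo hev hFe hFd hs hg hβ hβ0 hβ1 hβr hβr0 hβr1 hu hst
    hen h0 h1 h2 h3 I (fun w => hG.II_d b (by omega) w) A ?_ ?_ ?_
  · change I _ = _
    rw [key, smul_eq_mul]
    congr 1
    change JJ b (fun z => (Form.pull (u 1) (hu 1) B * Form.pull (u 2) (hu 2) B *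
      Form.pull (u 3) (hu 3) B *
      Form.pull (fun y => g (u 0 y, 0)) (map_end hg (hu 0) 0) F).val G z) = _
    have h4 : ∀ z, (Form.pull (u 1) (hu 1) B * Form.pull (u 2) (hu 2) B *
      Form.pull (u 3) (hu 3) B *
      Form.pull (fun y => g (u 0 y, 0)) (map_end hg (hu 0) 0) F).val G z =
      Fm.pull p1 (B.val (W 0) (p1 z)) * Fm.pull p2 (B.val (W 1) (p2 z)) *
        Fm.pull p3 (B.val (W 2) (p3 z)) * pf (F.val (fun x => g (V0 x, 0)) z.1) := fun z => by
      rw [Form.mul_val, Form.mul_val, Form.mul_val, hPval]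
      have k1 := hBval 0 z
      have k2 := hBval 1 z
      have k3 := hBval 2 z
      rw [show (Form.pull (u 1) (hu 1) B).val G z = _ from k1,
        show (Form.pull (u 2) (hu 2) B).val G z = _ from k2,
        show (Form.pull (u 3) (hu 3) B).val G z = _ from k3]
      rfl
    rw [JJ_congr b h4]
    refine JJ_three (β := fun i => B.val (W i)) (P := fun x => F.val (fun x => g (V0 x, 0)) x)
      hl bX bH ?_ ?_ ?_ ?_ hK1 hK' hc1 hc2 hc
    · intro x
      have h5 := congrArg (fun w : Form DM => w.val (fun x => g (V0 x, 0)) x) hF.part_eq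
      exact h5
    · exact fun i => (contDiff_iff_contDiffAt.2 fun z => B.smooth (at_glob (hW i) z)).continuous
    · exact (contDiff_iff_contDiffAt.2 fun z => F.smooth (at_glob hP0 z)).continuous
    · intro i z
      have h5 := congrArg (fun w : Form DU => w.val (W i) z) hBd.part_eq
      exact h5
  · intro k w hw
    refine JJ_rgA b ?_ hw
    rw [finrank_prod, finrank_prod, hZ, hHH]
    omega
  · intro k i hi w
    rw [mem_rgA]
    intro z
    induction i using Fin.cases with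
    | zero =>
      rw [val_fac (L := ContinuousLinearMap.fst ℝ Z (H × (H × H))) hG.map (hu 0) hV0 e0 w z,
        fst_fac k, pull_comp_apply]
      exact ⟨_, rfl⟩
    | succ i =>
      obtain ⟨L, hL⟩ := pj_fac (Z := Z) (H := H) k i fun h => hi (congrArg Fin.succ h)
      rw [val_fac hG.map (hu i.succ) (hW i) (e1 i) w z]
      rw [show Fm.pull (pj i) (w.val (W i) (pj i z)) = Fm.pull (L.comp (fg k))
        (w.val (W i) (pj i z)) by rw [← hL], pull_comp_apply]
      exact ⟨_, rfl⟩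
  · intro x m₁ _ _ _ _
    refine JJ_zero b fun z => ?_
    have h5 : (x * m₁ * Form.pull (fun y => g (u 0 y, 0)) (map_end hg (hu 0) 0) F ^ 2).val G z =
        0 := by
      have h6 : F.val (fun x => g (V0 x, 0)) z.1 * F.val (fun x => g (V0 x, 0)) z.1 = 0 := by
        have h7 := congrArg (fun w : Form DM => w.val (fun x => g (V0 x, 0)) z.1)
          (hF.mul hF).part_eq
        change prt (l + 1 + (l + 1)) ((F * F).val (fun x => g (V0 x, 0)) z.1) = _ at h7
        rw [Form.mul_val, prt_eq_zero (by omega)] at h7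
        exact h7.symm
      rw [sq, Form.mul_val, Form.mul_val, Form.mul_val, hPval, ← mul_assoc, mul_assoc, pf,
        ← map_mul, h6, map_zero, mul_zero]
    rw [h5]
    exact Q.evalForm_zero _

end Main

end Vale.Agent.P231.S3B
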