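import Vale.Agent.P231.S3B.Thn

/-!
# P231, stage 3, block B: the plot of `GY` is a box
-/

set_option maxSynthPendingDepth 3
set_option linter.unusedSectionVars false
set_option linter.unusedVariables false

open Bundle Manifold Set Filter Module MeasureTheory
open scoped ContDiff Manifold Topology

namespace Vale.Agent.P231.S3B

noncomputable section

open Vale.Agent.P234 Vale.Agent.P231 Vale.Agent.P231.Fm Vale.Agent.P231.W Vale.Agent.P231.WR
open Vale.Agent.P231.CoC
open Vale.Agent.P231.S3B1 (GY dGY)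

section Ins

variable {Z H : Type}

/-- insert a value in the slot `k` -/
def ins (k : Fin 3) (y₀ : H) (w : Z × (H × H)) : Z × (H × (H × H)) :=
  match k with
  | 0 => (w.1, (y₀, w.2))
  | 1 => (w.1, (w.2.1, (y₀, w.2.2)))
  | 2 => (w.1, (w.2.1, (w.2.2, y₀)))

variable [NormedAddCommGroup Z] [NormedSpace ℝ Z] [FiniteDimensional ℝ Z]
  [NormedAddCommGroup H] [NormedSpace ℝ H] [FiniteDimensional ℝ H]

theorem contDiff_ins (k : Fin 3) (y₀ : H) : ContDiff ℝ ∞ (ins (Z := Z) k y₀) := by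
  fin_cases k
  · exact contDiff_fst.prodMk (contDiff_const.prodMk contDiff_snd)
  · exact contDiff_fst.prodMk ((contDiff_fst.comp contDiff_snd).prodMk
      (contDiff_const.prodMk (contDiff_snd.comp contDiff_snd)))
  · exact contDiff_fst.prodMk ((contDiff_fst.comp contDiff_snd).prodMk
      ((contDiff_snd.comp contDiff_snd).prodMk contDiff_const))

theorem ins_fst (k : Fin 3) (y₀ : H) (z : Z × (H × (H × H))) : (ins k y₀ (fg k z)).1 = z.1 := by
  fin_cases k <;> rfl

theorem pj_fst (i : Fin 3) (z : Z × (H × (H × H))) : (pj i z).1 = z.1 := by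
  fin_cases i <;> rfl

theorem pj_ins_self (k : Fin 3) (y₀ : H) (z : Z × (H × (H × H))) :
    pj k (ins k y₀ (fg k z)) = (z.1, y₀) := by
  fin_cases k <;> rfl

theorem pj_ins (k i : Fin 3) (h : i ≠ k) (y₀ : H) (z : Z × (H × (H × H))) :
    pj i (ins k y₀ (fg k z)) = pj i z := by
  fin_cases k <;> fin_cases i <;> first | exact absurd rfl h | rfl

end Ins

variable {E : Type*} [NormedAddCommGroup E] [NormedSpace ℝ E]
  {M : Type*} [MetricSpace M] [ChartedSpace E M]
  [RiemannianBundle (fun x : M => TangentSpace 𝓘(ℝ, E) x)]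
  {e : ∀ x : M, TangentSpace 𝓘(ℝ, E) x → M}
  [FiniteDimensional ℝ E] [IsManifold 𝓘(ℝ, E) ∞ M]
  [IsContMDiffRiemannianBundle 𝓘(ℝ, E) ∞ E (fun x : M => TangentSpace 𝓘(ℝ, E) x)]
  [CompactSpace M] [ConnectedSpace M] [IsRiemannianManifold 𝓘(ℝ, E) M] {D : ℝ} {n : ℕ}

variable {Z H : Type} [NormedAddCommGroup Z] [NormedSpace ℝ Z] [FiniteDimensional ℝ Z]
  [MeasurableSpace Z] [BorelSpace Z] [NormedAddCommGroup H] [NormedSpace ℝ H]
  [FiniteDimensional ℝ H] [MeasurableSpace H] [BorelSpace H]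

variable (F : Facts e) (hD : 0 < D) (hB : InjGE e D) (hdiam : ∀ p q : M, dist p q ≤ D)
  (hP : ∀ x y : M, dist x y = D → finrank ℝ (H775.Pl e D x y) = 2 * n + 2)

section

variable {T : Z → Frm e D n} (hT : (Dif.lin Z).Map (S2I3.dFr e D (2 * n + 1)) T)
  {th : Fin 3 → H → Em n} (hth : ∀ i y, ‖th i y‖ = 1) (hs : ∀ i, ContDiff ℝ ∞ (th i))
  {K' : Set H} (hK' : IsCompact K') {ξo : Fin 3 → Em n} (hout : ∀ i, ∀ y ∉ K', th i y = ξo i)
  {K1 : Set Z} (hK1 : IsCompact K1) {vo : UT E M} (hvo : ∀ x ∉ K1, (T x).v = vo)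

include hT hs hK' hout in
/-- thinness where one fibre variable is far -/
theorem thn_far (k : Fin 3) {z₀ : Z × (H × (H × H))} (hz : (pj k z₀).2 ∉ K') :
    Thn (dGY e D) (Gp F hD hB hdiam T hth) (finrank ℝ Z + (finrank ℝ H + finrank ℝ H)) z₀ := by
  refine ⟨Z × (H × H), inferInstance, inferInstance, inferInstance,
    fun w => Gp F hD hB hdiam T hth (ins k (pj k z₀).2 w), fg k, ?_, ?_, ?_, ?_⟩
  · rw [finrank_prod, finrank_prod]
  · exact Sm.of_contDiff (fg (Z := Z) (H := H) k).contDiff _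
  · exact map_Gp F hD hB hdiam hT hth hs (u := ins k (pj k z₀).2)
      (Sm.of_contDiff (contDiff_ins k _) _)
  · have h1 : ∀ᶠ z : Z × (H × (H × H)) in 𝓝 z₀, (pj k z).2 ∉ K' := by
      have h2 : Continuous fun z : Z × (H × (H × H)) => (pj k z).2 :=
        continuous_snd.comp (pj (Z := Z) (H := H) k).continuous
      exact h2.continuousAt.eventually (hK'.isClosed.isOpen_compl.mem_nhds hz)
    filter_upwards [h1] with z hz'
    refine GY_ext fun j => ?_
    induction j using Fin.cases with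
    | zero =>
      change (T z.1).v = (T (ins k (pj k z₀).2 (fg k z)).1).v
      rw [ins_fst]
    | succ i =>
      change Wv T (hth i) (pj i z) = Wv T (hth i) (pj i (ins k (pj k z₀).2 (fg k z)))
      by_cases hik : i = k
      · subst hik
        rw [pj_ins_self]
        have h3 : pj i z = (z.1, (pj i z).2) := Prod.ext (pj_fst i z) rfl
        rw [h3]
        exact uv_congr ((hout i _ hz').trans (hout i _ hz).symm)
      · rw [pj_ins k i hik]

include hP hT hs hK' hout hK1 hvo in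
/-- **the box** -/
theorem bx_Gp (hZ : finrank ℝ Z = 2 * n + 2) (hH : finrank ℝ H = 2 * n + 1) :
    Bx (dGY e D) (Gp F hD hB hdiam T hth) (K1 ×ˢ (K' ×ˢ (K' ×ˢ K'))) (6 * n + 6) where
  map := map_Gp F hD hB hdiam hT hth hs
  cpt := hK1.prod (hK'.prod (hK'.prod hK'))
  thin z hz := by
    by_cases h1 : z.1 ∈ K1
    · have h2 : ∃ k : Fin 3, (pj k z).2 ∉ K' := by
        by_contra hcon
        push Not at hcon
        exact hz ⟨h1, hcon 0, hcon 1, hcon 2⟩
      obtain ⟨k, hk⟩ := h2
      exact (thn_far F hD hB hdiam hT hth hs hK' hout k hk).mono (by omega)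
    · refine (thn_fix F hD hB hdiam hP (v := vo)
        (at_glob (map_Gp F hD hB hdiam hT hth hs) z) ?_).mono (by omega)
      have h2 : ∀ᶠ z' : Z × (H × (H × H)) in 𝓝 z, z'.1 ∉ K1 :=
        continuous_fst.continuousAt.eventually (hK1.isClosed.isOpen_compl.mem_nhds h1)
      filter_upwards [h2] with z' hz'
      exact hvo _ hz'

end

end

end Vale.Agent.P231.S3B
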