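import Vale.Agent.P231.S3B.Gen

/-!
# P231, stage 3, block B: iterated integrals of concatenated paths

`seg a b w` is the integral of `∂_t ⌟ w` over `[a, b]`, `G_i` the form `G` pulled back to `Y × [0,1]`
by `t = t_i + (t_(i+1) - t_i) r`. `iter_cat` is the formula for the iterated integral
`- KT T (K G ^ 2) - KT T (K G) G₀` in terms of the `G_i`.
-/

set_option linter.unusedSectionVars false
set_option linter.unusedVariables false

open MeasureTheory Set Module Filter Topology
open scoped ContDiff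

namespace Vale.Agent.P231.S3B

open Fm W H584

variable {Y : Type*} {D : Dif Y}

/-- affine change of time -/
def aff (a b : ℝ) (p : Y × ℝ) : Y × ℝ := (p.1, a + (b - a) * p.2)

theorem map_aff (a b : ℝ) : (D.prod (Dif.lin ℝ)).Map (D.prod (Dif.lin ℝ)) (aff a b) :=
  fun {E} _ _ _ {u x} h => ⟨h.1, Sm.comp (f := fun t : ℝ => a + (b - a) * t)
    (g := fun y => (u y).2) (Sm.of_contDiff (by fun_prop) _) h.2⟩

/-- the form `w` on the `i`-th piece -/
noncomputable def pc (a b : ℝ) (w : Form (D.prod (Dif.lin ℝ))) : Form (D.prod (Dif.lin ℝ)) :=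
  Form.pull (aff a b) (map_aff a b) w

/-- integral over `[a, b]` -/
noncomputable def seg (a b : ℝ) (w : Form (D.prod (Dif.lin ℝ))) : Form D := Form.K (pc a b w)

theorem pc_mul (a b : ℝ) (w v : Form (D.prod (Dif.lin ℝ))) : pc a b (w * v) = pc a b w * pc a b v :=
  map_mul (Form.pullA _ (map_aff a b)) w v

theorem pc_pow (a b : ℝ) (w : Form (D.prod (Dif.lin ℝ))) (n : ℕ) : pc a b (w ^ n) = pc a b w ^ n :=
  map_pow (Form.pullA _ (map_aff a b)) w n

theorem pc_d (a b : ℝ) (w : Form (D.prod (Dif.lin ℝ))) : pc a b w.d = (pc a b w).d :=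
  Form.pull_d _ _ w

theorem pc_sg (a b : ℝ) (w : Form (D.prod (Dif.lin ℝ))) : pc a b w.sg = (pc a b w).sg :=
  Form.pull_sg _ _ w

theorem at_pc (a b r : ℝ) (w : Form (D.prod (Dif.lin ℝ))) :
    at_ r (pc a b w) = at_ (a + (b - a) * r) w :=
  pull_pull (Form.map_slice r) (map_aff a b) (Form.map_slice _) (fun _ => rfl) w

theorem co_pc {E : Type} [NormedAddCommGroup E] [NormedSpace ℝ E] [FiniteDimensional ℝ E]
    (a b : ℝ) (w : Form (D.prod (Dif.lin ℝ))) {u : E → Y} {x : E} (h : D.At u x) (t : ℝ) :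
    co (pc a b w) u x t = (b - a) • co w u x (a + (b - a) * t) := by
  rw [co, pc, Form.pull_val _ _ (Form.cyl_at h t)]
  have h2 := co_shear w (u := u) (g := fun y : E => y) (a := fun _ => a) (x := x) (b - a) h
    (Sm.of_contDiff contDiff_id x) (Sm.of_contDiff contDiff_const x) t
  have h3 : fderiv ℝ (fun y : E => y) x = ContinuousLinearMap.id ℝ E := fderiv_fun_id
  rw [h3, Fm.pull_id] at h2
  exact h2

theorem integral_co_pc {E : Type} [NormedAddCommGroup E] [NormedSpace ℝ E]
    [FiniteDimensional ℝ E] (a b s : ℝ) (w : Form (D.prod (Dif.lin ℝ))) {u : E → Y} {x : E}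
    (h : D.At u x) : (∫ t in (0 : ℝ)..s, co (pc a b w) u x t) =
      ∫ t in a..(a + (b - a) * s), co w u x t := by
  simp only [co_pc a b w h]
  rw [intervalIntegral.integral_smul]
  have h7 := intervalIntegral.smul_integral_comp_add_mul (f := co w u x) (a := 0) (b := s) (b - a) a
  rw [mul_zero, add_zero] at h7
  exact h7

theorem seg_val {E : Type} [NormedAddCommGroup E] [NormedSpace ℝ E] [FiniteDimensional ℝ E]
    (a b : ℝ) (w : Form (D.prod (Dif.lin ℝ))) {u : E → Y} {x : E} (h : D.At u x) :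
    (seg a b w).val u x = ∫ t in a..b, co w u x t := by
  rw [seg, K_val' _ h, integral_co_pc a b 1 w h, mul_one]
  congr 1
  ring

theorem seg_add (a b c : ℝ) (w : Form (D.prod (Dif.lin ℝ))) :
    seg a b w + seg b c w = seg a c w := Form.ext_val fun E _ _ _ u x h => by
  rw [Form.add_val, seg_val a b w h, seg_val b c w h, seg_val a c w h]
  exact intervalIntegral.integral_add_adjacent_intervals
    ((continuous_co w h).intervalIntegrable _ _) ((continuous_co w h).intervalIntegrable _ _)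

theorem KT_eq_seg (c : ℝ) (w : Form (D.prod (Dif.lin ℝ))) : KT c w = seg 0 c w :=
  Form.ext_val fun E _ _ _ u x h => by rw [KT_val c w h, seg_val 0 c w h]

/-- the primitive on a piece -/
theorem pc_Pm (a b : ℝ) (w : Form (D.prod (Dif.lin ℝ))) :
    pc a b (Pm w) = pr (KT a w) + Pm (pc a b w) := ext_cyl fun E _ _ _ u x s h => by
  rw [Form.add_val, Pm_cyl_val _ h, pr, Form.fst_val _ h, KT_val a w h, ← map_add,
    integral_co_pc a b s w h, intervalIntegral.integral_add_adjacent_intervals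
    ((continuous_co w h).intervalIntegrable _ _) ((continuous_co w h).intervalIntegrable _ _),
    pc, Form.pull_val _ _ (Form.cyl_at h s)]
  let g : E × ℝ → E × ℝ := fun p => (p.1, a + (b - a) * p.2)
  have h2 : (aff a b ∘ Form.cyl u : E × ℝ → Y × ℝ) = Form.cyl u ∘ g := rfl
  have h3 : Sm g (x, s) := Sm.of_contDiff (by fun_prop) _
  have h4 : HasFDerivAt g ((ContinuousLinearMap.fst ℝ E ℝ).prod
      ((b - a) • ContinuousLinearMap.snd ℝ E ℝ)) (x, s) :=
    hasFDerivAt_fst.prodMk ((hasFDerivAt_snd.const_mul (b - a)).const_add a)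
  rw [h2, (Pm w).nat (u := Form.cyl u) (g := g) (x := (x, s)) (Form.cyl_at h _) h3, h4.fderiv,
    Pm_cyl_val w h, ← pull_comp_apply]
  rfl

/-- the integral of `G²` over a piece -/
theorem K_sq {G : Form (D.prod (Dif.lin ℝ))} (hGe : G.sg = G) (hGd : G.d = 0) :
    Form.K (G ^ 2) = Form.K G * (at_ 0 G + at_ 1 G) - (Form.K (Pm G * G)).d := by
  have h1 : G.d = pr 0 := by rw [hGd, pr_zero]
  have h2 := Pm_d h1
  have h3 : G ^ 2 = pr (at_ 0 G) * G + (Pm G * G).d := by
    rw [d_mul_right _ hGd, h2, sub_mul, pow_two]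
    abel
  have h4 := homotopy' (Pm G * G)
  have h5 : Form.K (Pm G * G).d = Form.K G * at_ 1 G - (Form.K (Pm G * G)).d := by
    have h6 : at_ 1 (Pm G * G) - at_ 0 (Pm G * G) = Form.K G * at_ 1 G := by
      rw [at_mul, at_mul, Pm_zero, zero_mul, sub_zero, Pm_at, KT_one]
    rw [← h6, h4]
    abel
  have h7 : (at_ 0 G).sg = at_ 0 G := by rw [← at_sg, hGe]
  rw [h3, Form.K_add, K_pr_mul, h5, h7, mul_add, Form.mul_comm_of_even h7]
  abel

/-- the contribution of one piece which involves only this piece -/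
noncomputable def self (G : Form (D.prod (Dif.lin ℝ))) : Form D :=
  Form.K (Pm G * G) * at_ 0 G + Form.K (Pm G * G ^ 2)

/-- the iterated integral over a piece -/
theorem iter_piece {G : Form (D.prod (Dif.lin ℝ))} (hGe : G.sg = G) (hGd : G.d = 0) (a b : ℝ) :
    -seg a b (Pm G * G ^ 2) - seg a b (Pm G * G) * at_ 0 G =
      KT a G * seg a b G * (at_ 0 G + at_ a G + at_ b G) - self (pc a b G) +
        (KT a G * Form.K (Pm (pc a b G) * pc a b G)).d := by
  set H := pc a b G with hH
  set S := KT a G with hS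
  have hHe : H.sg = H := by rw [hH, ← pc_sg, hGe]
  have hHd : H.d = 0 := by
    rw [hH, ← pc_d, hGd]
    exact map_zero (Form.pullA _ (map_aff a b))
  have hSo : S.sg = -S := by rw [hS, KT_sg, hGe]
  have h0 : at_ 0 H = at_ a G := by rw [hH, at_pc, mul_zero, add_zero]
  have h1 : at_ 1 H = at_ b G := by rw [hH, at_pc, mul_one]; congr 1; ring
  have hSd : S.d = at_ a G - at_ 0 G := by
    have h2 := KT_homotopy a G
    rw [hGd, KT_zero, zero_add] at h2
    exact h2.symm
  have hge : ∀ c, (at_ c G).sg = at_ c G := fun c => by rw [← at_sg, hGe]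
  set W := Form.K (Pm H * H) with hW
  have e1 : seg a b (Pm G * G ^ 2) = -(S * (Form.K H * (at_ a G + at_ b G) - W.d)) +
      Form.K (Pm H * H ^ 2) := by
    rw [seg, pc_mul, pc_pow, pc_Pm, add_mul, Form.K_add, K_pr_mul, hSo, ← hH, K_sq hHe hHd, h0, h1,
      neg_mul]
  have e2 : seg a b (Pm G * G) = -(S * Form.K H) + W := by
    rw [seg, pc_mul, pc_Pm, add_mul, Form.K_add, K_pr_mul, hSo, neg_mul]
  have e3 : seg a b G = Form.K H := rfl
  have e4 : (S * W).d = (at_ a G - at_ 0 G) * W - S * W.d := by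
    rw [Form.d_mul, hSd, hSo, neg_mul, ← sub_eq_add_neg]
  have e5 : (at_ a G - at_ 0 G) * W = W * at_ a G - W * at_ 0 G := by
    rw [sub_mul, Form.mul_comm_of_even (hge a), Form.mul_comm_of_even (hge 0)]
  rw [e1, e2, e3, e4, e5, self, h0, ← hW]
  simp only [mul_add, add_mul, mul_sub, neg_mul, mul_assoc]
  abel

end Vale.Agent.P231.S3B
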