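import Vale.Agent.P231.S3B.Gen

/-!
# P231, stage 3, block B: `t₂` of a map into a space with a circle action

`t2_family`: for a map `s : Y → X` into a space with a flow of period `T` and a connection form,
the pull-back of `t₂` along `s` is computed by the iterated integral of the family of loops
`(y, t) ↦ Φ (s y, t)`.
-/

set_option linter.unusedSectionVars false
set_option linter.unusedVariables false

open MeasureTheory Set Module Filter Topology
open scoped ContDiff

namespace Vale.Agent.P231.S3B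

open Fm W H584

variable {X Y : Type*} {DX : Dif X} {D : Dif Y} {T : ℝ} {Φ : X × ℝ → X}

theorem map_fam (hΦ : (DX.prod (Dif.lin ℝ)).Map DX Φ) {s : Y → X} (hs : D.Map DX s) :
    (D.prod (Dif.lin ℝ)).Map DX (fun p => Φ (s p.1, p.2)) :=
  fun {E} _ _ _ {u x} hh => hΦ (map_cyl hs hh)

/-- the pull-back of a basic form along the family of loops -/
theorem pull_fam_basic (hΦ : (DX.prod (Dif.lin ℝ)).Map DX Φ) {s : Y → X} (hs : D.Map DX s)
    {b : Form DX} (hb : Basic Φ hΦ b) :
    Form.pull (fun p : Y × ℝ => Φ (s p.1, p.2)) (map_fam hΦ hs) b = pr (Form.pull s hs b) := by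
  have h1 : Form.pull (fun p : Y × ℝ => Φ (s p.1, p.2)) (map_fam hΦ hs) b =
      Form.pull (fun p : Y × ℝ => (s p.1, p.2)) (map_cyl hs) (Form.pull Φ hΦ b) :=
    (pull_pull (map_cyl hs) hΦ (map_fam hΦ hs) (fun _ => rfl) b).symm
  rw [h1, hb, pr, pr]
  refine (pull_pull (map_cyl hs) Dif.map_fst (hs.comp Dif.map_fst) (fun _ => rfl) b).trans ?_
  exact (pull_pull Dif.map_fst hs (hs.comp Dif.map_fst) (fun _ => rfl) b).symm

theorem pull_fam_J (hΦ : (DX.prod (Dif.lin ℝ)).Map DX Φ) {s : Y → X} (hs : D.Map DX s) (c : ℝ)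
    (w : Form DX) : Form.pull s hs (J Φ hΦ c w) =
      KT c (Form.pull (fun p : Y × ℝ => Φ (s p.1, p.2)) (map_fam hΦ hs) w) := by
  rw [J_def, KT_nat hs]
  congr 1
  exact pull_pull (map_cyl hs) hΦ (map_fam hΦ hs) (fun _ => rfl) w

variable (h : IsFlow DX T Φ) {α : Form DX}

theorem pull_fam_at (h : IsFlow DX T Φ) {s : Y → X} (hs : D.Map DX s) (w : Form DX) :
    at_ 0 (Form.pull (fun p : Y × ℝ => Φ (s p.1, p.2)) (map_fam h.map hs) w) =
      Form.pull s hs w ∧
    at_ T (Form.pull (fun p : Y × ℝ => Φ (s p.1, p.2)) (map_fam h.map hs) w) =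
      Form.pull s hs w := by
  constructor
  · exact pull_pull (Form.map_slice 0) (map_fam h.map hs) hs (fun y => h.zero _) w
  · exact pull_pull (Form.map_slice T) (map_fam h.map hs) hs (fun y => h.per _) w

/-- **the form `t₂` of a map into a space with a circle action** -/
theorem t2_family (hT : T ≠ 0) (h : IsFlow DX T Φ) (hα : Form.pull Φ h.map α = pr α + dt)
    (hαo : α.sg = -α) {G : Form DX} (hGe : G.sg = G) (hGd : G.d = 0) {s : Y → X}
    (hs : D.Map DX s) {Gs : Form (D.prod (Dif.lin ℝ))}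
    (hGs : Form.pull (fun p : Y × ℝ => Φ (s p.1, p.2)) (map_fam h.map hs) G = Gs) :
    ∃ Z m₁ : Form D, m₁.sg = m₁ ∧ m₁.d = 0 ∧
      Form.pull s hs (t2 2 Φ h.map T G) =
        KT T Gs * (-KT T (Pm Gs * Gs ^ 2) - KT T (Pm Gs * Gs) * at_ 0 Gs) -
          (3 : ℝ) • (KT T Gs * m₁ * (at_ 0 Gs) ^ 2) + Z.d := by
  have hGse : Gs.sg = Gs := by rw [← hGs, ← Form.pull_sg, hGe]
  have hGsd : Gs.d = 0 := by
    rw [← hGs, ← Form.pull_d, hGd]
    exact map_zero (Form.pullA _ (map_fam h.map hs))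
  have hper : at_ T Gs = at_ 0 Gs := by
    rw [← hGs, (pull_fam_at h hs G).1, (pull_fam_at h hs G).2]
  set P : Form DX → Form (D.prod (Dif.lin ℝ)) :=
    Form.pull (fun p : Y × ℝ => Φ (s p.1, p.2)) (map_fam h.map hs) with hP
  have Padd : ∀ a b, P (a + b) = P a + P b := map_add (Form.pullA _ (map_fam h.map hs))
  have Pmul : ∀ a b, P (a * b) = P a * P b := map_mul (Form.pullA _ (map_fam h.map hs))
  have Psub : ∀ a b, P (a - b) = P a - P b := map_sub (Form.pullA _ (map_fam h.map hs))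
  have Pneg : ∀ a, P (-a) = -P a := map_neg (Form.pullA _ (map_fam h.map hs))
  have Psmul : ∀ (c : ℝ) a, P (c • a) = c • P a := map_smul (Form.pullA _ (map_fam h.map hs))
  have Pα : P α = pr (Form.pull s hs α) + dt := by
    have h1 : P α = Form.pull (fun p : Y × ℝ => (s p.1, p.2)) (map_cyl hs) (Form.pull Φ h.map α) :=
      (pull_pull (map_cyl hs) h.map (map_fam h.map hs) (fun _ => rfl) α).symm
    have h2 : Form.pull (fun p : Y × ℝ => (s p.1, p.2)) (map_cyl hs) (pr α) =
        pr (Form.pull s hs α) := by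
      rw [pr, pr]
      refine (pull_pull (map_cyl hs) Dif.map_fst (hs.comp Dif.map_fst) (fun _ => rfl) α).trans ?_
      exact (pull_pull Dif.map_fst hs (hs.comp Dif.map_fst) (fun _ => rfl) α).symm
    rw [h1, hα, ← h2, ← pull_dt hs]
    exact map_add (Form.pullA _ (map_cyl hs)) _ _
  set Xf : Form D := Form.pull s hs (xc Φ h.map T α G) + T⁻¹ • (Form.pull s hs α * KT T Gs)
    with hXf
  have hso : (Form.pull s hs α).sg = -Form.pull s hs α := by
    rw [← Form.pull_sg, hαo]
    exact map_neg (Form.pullA s hs) α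
  have hXe : Xf.sg = Xf := by
    rw [hXf, Form.sg_add, ← Form.pull_sg, xc_sg h hα hαo hGe, Form.sg_smul, Form.sg_mul, hso,
      x_odd hGse, neg_mul_neg]
  have hxp : Form.pull s hs (xp Φ h.map T G) = KT T Gs := by
    rw [xp_def, pull_fam_J, ← hGs]
  have hGh : P (Gh Φ h.map T G) = pr Xf + dl T Gs := by
    rw [Gh_eq h hT hα hαo hGd, Padd, Pmul, Psmul, Pα, hP, pull_fam_basic h.map hs (xc_basic h hα hαo hGe),
      pull_fam_basic h.map hs (xp_basic h), hxp, hXf, pr_add, pr_smul, pr_mul, dl, smul_add, add_mul,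
      smul_mul_assoc]
    abel
  have hlm : (P (lam Φ h.map T G)).d = Gs - pr Xf - dl T Gs := by
    have h1 : (lam Φ h.map T G).d = G - Gh Φ h.map T G := by rw [Gh_def]; abel
    have h2 : (P (lam Φ h.map T G)).d = P (lam Φ h.map T G).d := (Form.pull_d _ _ _).symm
    rw [h2, h1, Psub, hGh]
    have h3 : P G = Gs := hGs
    rw [h3]
    abel
  have hlo : (P (lam Φ h.map T G)).sg = -P (lam Φ h.map T G) := by
    have h2 : (P (lam Φ h.map T G)).sg = P (lam Φ h.map T G).sg := (Form.pull_sg _ _ _).symm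
    rw [h2, lam_sg h hGe, Pneg]
  have hlper : at_ T (P (lam Φ h.map T G)) = at_ 0 (P (lam Φ h.map T G)) :=
    (pull_fam_at h hs _).2.trans (pull_fam_at h hs _).1.symm
  obtain ⟨Z, m₁, h1, h2, h3⟩ := gen hT hGse hGsd hper hlo hlper hXe hlm
  refine ⟨Z, m₁, h1, h2, ?_⟩
  rw [← h3]
  have h4 : Form.pull s hs (t2 2 Φ h.map T G) =
      Form.pull s hs (xp Φ h.map T G) * Form.pull s hs (yp 2 Φ h.map T G) := by
    rw [t2_def]
    exact map_mul (Form.pullA s hs) _ _
  rw [h4, hxp, yp_def, pull_fam_J]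
  congr 2
  have h5 : P (y0 2 Φ h.map T G) = -(P (lam Φ h.map T G) * P (hh 2 G (Gh Φ h.map T G))) := by
    rw [y0_def, Pneg, Pmul]
  have h6 : P (hh 2 G (Gh Φ h.map T G)) = hh 2 Gs (pr Xf + dl T Gs) := by
    have h3 : P G = Gs := hGs
    rw [hh_two, hh_two, pow_two, pow_two, Padd, Padd, Pmul, Pmul, Pmul, hGh, h3, pow_two, pow_two]
  rw [← h6, ← h5]

/-- invariance of the value under homotopies -/
theorem pull_homotopy {X : Type*} {DX : Dif X} {S : Y × ℝ → X}
    (hS : (D.prod (Dif.lin ℝ)).Map DX S) {w : Form DX} (hw : w.d = 0) :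
    Form.pull (fun y => S (y, 1)) (map_at hS 1) w - Form.pull (fun y => S (y, 0)) (map_at hS 0) w =
      (Form.K (Form.pull S hS w)).d := by
  have h1 := homotopy' (Form.pull S hS w)
  rw [← Form.pull_d, hw, at_pull_of, at_pull_of] at h1
  rw [h1]
  have h2 : Form.pull S hS (0 : Form DX) = 0 := map_zero (Form.pullA S hS)
  rw [h2, K_zero, zero_add]

end Vale.Agent.P231.S3B
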