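import Vale.Agent.P231.S3B.Bxg
import Vale.Agent.P231.TW.Ang

/-!
# P231, stage 3, block B: the fibre integrals of `B0` over the spheres of the planes
-/

set_option maxSynthPendingDepth 3
set_option linter.unusedSectionVars false
set_option linter.unusedVariables false

open Bundle Manifold Set Filter Module MeasureTheory
open scoped ContDiff Manifold Topology

namespace Vale.Agent.P231.S3B

noncomputable section

open Vale.Agent.P234 Vale.Agent.P231 Vale.Agent.P231.Fm Vale.Agent.P231.W Vale.Agent.P231.WR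
open Vale.Agent.P231.TW (JJ JJ_congr JJ_zero)

/-- a map from a `2 n + 1`-dimensional space to the unit sphere of `Em n` which is constant
outside a compact set and has degree one -/
structure Cap (n : ℕ) {H : Type} [NormedAddCommGroup H] [NormedSpace ℝ H] [FiniteDimensional ℝ H]
    [MeasurableSpace H] [BorelSpace H] (th : H → CoC.Em n) (K' : Set H) (ξo : CoC.Em n) :
    Prop where
  smooth : ContDiff ℝ ∞ th
  norm : ∀ y, ‖th y‖ = 1
  nout : ‖ξo‖ = 1
  out : ∀ y ∉ K', th y = ξo
  deg : ∀ (bH : Basis (Fin (2 * n + 1)) ℝ H) (om : CoC.Em n → Lam (CoC.Em n)),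
    ContDiffOn ℝ ∞ om {0}ᶜ → TW.Hom om →
      |JJ bH (pb th om)| = |JJ (TW.bE (2 * n + 2)) (fun y => Q.dR rst y * om y)|

variable {E : Type*} [NormedAddCommGroup E] [NormedSpace ℝ E]
  {M : Type*} [MetricSpace M] [ChartedSpace E M]
  [RiemannianBundle (fun x : M => TangentSpace 𝓘(ℝ, E) x)]
  {e : ∀ x : M, TangentSpace 𝓘(ℝ, E) x → M}
  [FiniteDimensional ℝ E] [IsManifold 𝓘(ℝ, E) ∞ M]
  [IsContMDiffRiemannianBundle 𝓘(ℝ, E) ∞ E (fun x : M => TangentSpace 𝓘(ℝ, E) x)]
  [CompactSpace M] [ConnectedSpace M] [IsRiemannianManifold 𝓘(ℝ, E) M] {D : ℝ} {n : ℕ}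

variable {Z H : Type} [NormedAddCommGroup Z] [NormedSpace ℝ Z] [FiniteDimensional ℝ Z]
  [MeasurableSpace Z] [BorelSpace Z] [NormedAddCommGroup H] [NormedSpace ℝ H]
  [FiniteDimensional ℝ H] [MeasurableSpace H] [BorelSpace H]

variable (F : Facts e) (hD : 0 < D) (hB : InjGE e D) (hdiam : ∀ p q : M, dist p q ≤ D)

section Const

variable {T : Z → Frm e D n} (hT : (Dif.lin Z).Map (S2I3.dFr e D (2 * n + 1)) T)
  {th : H → CoC.Em n} {K' : Set H} {ξo : CoC.Em n} (hC : Cap n th K' ξo)

/-- the differential of the primitive -/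
theorem B0_d' {G : Form (dM E M)} (hG : G.d = 0) :
    (WR.B0 F D G).d = Form.pull (bar e D) (CoC.map_bar F D) G - Form.pull foot map_foot G := by
  have h := WA.KT_homotopy D (Form.pull (gm e) (map_gm F) G)
  rw [WA.at_pull (map_gm F) D (CoC.map_bar F D) (fun _ => rfl),
    WA.at_pull (map_gm F) 0 map_foot (fun v => gm_zero F v), ← Form.pull_d, hG] at h
  have h3 : Form.pull (gm e) (map_gm F) (0 : Form (dM E M)) = 0 :=
    map_zero (Form.pullA (gm e) (map_gm F))
  rw [h3, WA.KT_zero', zero_add] at h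
  exact h.symm

/-- the value on a fibre -/
theorem val_fibre (w : Form (dUT E M)) (x : Z) (y : H) (hT : (Dif.lin Z).Map (S2I3.dFr e D (2 * n + 1)) T)
    (hC : Cap n th K' ξo) :
    Fm.pull (ContinuousLinearMap.inr ℝ Z H) (w.val (Wv T hC.norm) (x, y)) =
      w.val (fun y => Wv T hC.norm (x, y)) y := by
  have h0 : (dUT E M).At (Wv T hC.norm) (x, y) := at_glob (map_Wv hT hC.norm hC.smooth) (x, y)
  have hg : Sm (fun y : H => (x, y)) y :=
    Sm.of_contDiff (contDiff_const.prodMk contDiff_id) _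
  have h1 := w.nat (g := fun y : H => (x, y)) (x := y) h0 hg
  have h2 : fderiv ℝ (fun y : H => (x, y)) y = ContinuousLinearMap.inr ℝ Z H :=
    (hasFDerivAt_prodMk_right x y).fderiv
  rw [h2] at h1
  exact h1.symm

include F hD hB hdiam hT hC in
/-- **the fibre integral is constant** -/
theorem fib_const {G : Form (dM E M)} (hG : G.d = 0) (hk : Form.IsDeg (2 * n + 1 + 1) G)
    (hK' : IsCompact K') (bH : Basis (Fin (2 * n + 1)) ℝ H) (x x' : Z) :
    JJ bH (fun y => Fm.pull (ContinuousLinearMap.inr ℝ Z H)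
        ((WR.B0 F D G).val (Wv T hC.norm) (x, y))) =
      JJ bH (fun y => Fm.pull (ContinuousLinearMap.inr ℝ Z H)
        ((WR.B0 F D G).val (Wv T hC.norm) (x', y))) := by
  set B := WR.B0 F D G with hBdef
  have hBk : Form.IsDeg (2 * n + 1) B := Co.isDeg_KT D (hk.pull _ _)
  have hU1 : (Dif.lin (Z × H)).Map (dUT E M) (Wv T hC.norm) := map_Wv hT hC.norm hC.smooth
  -- the constant section
  let U2 : Z × H → UT E M := fun z => uv (T z.1) ξo hC.nout
  have hU2 : (Dif.lin (Z × H)).Map (dUT E M) U2 := by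
    intro V _ _ _ u x hu
    have hu' : Sm u x := hu
    exact at_uv (T := fun y => T (u y).1) (ξ := fun _ => ξo) (hT hu'.fst)
      (Sm.of_contDiff contDiff_const _) fun _ => hC.nout
  have hb : ∀ z, bar e D (Wv T hC.norm z) = bar e D (U2 z) := fun z => by
    rw [Wv, bar_uv F hD hB hdiam, bar_uv F hD hB hdiam]
  have hf : ∀ z, foot (Wv T hC.norm z) = foot (U2 z) := fun z => rfl
  have hBd := B0_d' F (D := D) hG
  have hpr : ∀ (U : Z × H → UT E M) z, WA.prt (2 * n + 1) (B.val U z) = B.val U z := fun U z => by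
    have h1 := congrArg (fun w : Form (dUT E M) => w.val U z) hBk.part_eq
    exact h1
  have hs : ∀ {U : Z × H → UT E M}, (Dif.lin (Z × H)).Map (dUT E M) U →
      ContDiff ℝ ∞ (B.val U) := fun {U} hU =>
    contDiff_iff_contDiffAt.2 fun z => B.smooth (at_glob hU z)
  let w : Z × H → Lam (Z × H) := fun z => B.val (Wv T hC.norm) z - B.val U2 z
  have hsec : ∀ (x : Z) (y : H), Fm.pull (ContinuousLinearMap.inr ℝ Z H) (B.val U2 (x, y)) =
      0 := by
    intro x y
    have hg : Sm (fun y : H => (x, y)) y :=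
      Sm.of_contDiff (contDiff_const.prodMk contDiff_id) _
    have h1 := B.nat (g := fun y : H => (x, y)) (x := y) (at_glob hU2 (x, y)) hg
    have h2 : fderiv ℝ (fun y : H => (x, y)) y = ContinuousLinearMap.inr ℝ Z H :=
      (hasFDerivAt_prodMk_right x y).fderiv
    rw [h2] at h1
    rw [← h1]
    refine TH.val_const hBk ?_ (c := uv (T x) ξo hC.nout) (Eventually.of_forall fun _ => rfl)
    exact hU2 (u := fun y : H => (x, y)) hg
  have key := JJ_const bH (w := w) ((hs hU1).sub (hs hU2)) ?_ ?_ hK' ?_ x x'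
  · have h1 : ∀ x, JJ bH (fun y => Fm.pull (ContinuousLinearMap.inr ℝ Z H) (w (x, y))) =
        JJ bH (fun y => Fm.pull (ContinuousLinearMap.inr ℝ Z H)
          (B.val (Wv T hC.norm) (x, y))) := fun x => JJ_congr bH fun y => by
      simp only [w]
      rw [map_sub, hsec, sub_zero]
    rw [h1, h1] at key
    exact key
  · intro z
    have h1 : WA.prt (2 * n + 1) (w z) = WA.prt (2 * n + 1) (B.val (Wv T hC.norm) z) -
        WA.prt (2 * n + 1) (B.val U2 z) := map_sub _ _ _
    rw [h1, hpr, hpr]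
  · intro z
    have h1 : extd w z = extd (B.val (Wv T hC.norm)) z - extd (B.val U2) z :=
      extd_sub ((hs hU1).differentiable (by simp) z) ((hs hU2).differentiable (by simp) z)
    rw [h1, ← Form.d_val B (at_glob hU1 z), ← Form.d_val B (at_glob hU2 z), hBd, Form.sub_val,
      Form.sub_val, Form.pull_val _ _ (at_glob hU1 z), Form.pull_val _ _ (at_glob hU1 z),
      Form.pull_val _ _ (at_glob hU2 z), Form.pull_val _ _ (at_glob hU2 z)]
    have h2 : bar e D ∘ Wv T hC.norm = bar e D ∘ U2 := funext hb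
    have h3 : foot ∘ Wv T hC.norm = foot ∘ U2 := funext hf
    rw [h2, h3, sub_self]
  · intro x y hy
    have h1 : Wv T hC.norm =ᶠ[𝓝 (x, y)] U2 := by
      have h2 : ∀ᶠ z : Z × H in 𝓝 (x, y), z.2 ∉ K' :=
        (continuous_snd (X := Z) (Y := H)).continuousAt.eventually
          (hK'.isClosed.isOpen_compl.mem_nhds (show ((x, y) : Z × H).2 ∈ K'ᶜ from hy))
      filter_upwards [h2] with z hz
      exact uv_congr (hC.out _ hz)
    simp only [w]
    rw [B.congr (at_glob hU1 (x, y)) h1, sub_self]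

end Const

section Value

variable (hl : ∀ x y : M, dist x y = D → finrank ℝ (H775.Pl e D x y) = 2 * n + 2)
  {p : M} {Pi : TangentSpace 𝓘(ℝ, E) p → TangentSpace 𝓘(ℝ, E) p →L[ℝ] TangentSpace 𝓘(ℝ, E) p}
  {o : TangentSpace 𝓘(ℝ, E) p → Fm.Lam (TangentSpace 𝓘(ℝ, E) p)}
  {ρ : TangentSpace 𝓘(ℝ, E) p → ℝ} {r₀ : ℝ}
  (hJ : FE.LineP e D p n Pi o) (hρ : WE.Rho e D p ρ r₀) (a : ℝ)

/-- the isometry on the plane, with a named base point -/
def lip {f : Frm e D n} (hf : foot f.v = p) : CoC.Em n →ₗᵢ[ℝ] TangentSpace 𝓘(ℝ, E) p :=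
  hf ▸ li f

theorem lip_apply {f : Frm e D n} (hf : foot f.v = p) (ξ : CoC.Em n) :
    (lip hf ξ : E) = (li f ξ : E) := by
  subst hf
  rfl

include F hD hB hdiam in
theorem Pi_lip (hJ : FE.LineP e D p n Pi o) {f : Frm e D n} (hf : foot f.v = p)
    (w : CoC.Em n) : Pi (lip hf (CoC.bE n 0)) (lip hf w) = lip hf w := by
  subst hf
  change Pi (li f (CoC.bE n 0)) (li f w) = li f w
  have hn : ‖li f (CoC.bE n 0)‖ = 1 := by rw [(li f).norm_map, CoC.norm_bE]
  by_cases hw : w = 0
  · rw [hw, (li f).map_zero, ContinuousLinearMap.map_zero]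
  · have hw' : ‖w‖ ≠ 0 := norm_ne_zero_iff.2 hw
    have h1 : ‖li f (rad w)‖ = 1 := by rw [(li f).norm_map, FE.nm_rad hw]
    have h2 : Pi (li f (CoC.bE n 0)) (li f (rad w)) = li f (rad w) := by
      refine (hJ.cut _ _ hn h1).1 ?_
      have h3 := bar_uv F hD hB hdiam f (CoC.bE n 0) (CoC.norm_bE 0)
      have h4 := bar_uv F hD hB hdiam f (rad w) (FE.nm_rad hw)
      exact h3.trans h4.symm
    have h5 : w = ‖w‖ • rad w := by
      rw [rad, smul_smul, mul_inv_cancel₀ hw', one_smul]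
    have h6 : li f w = ‖w‖ • li f (rad w) := by
      conv_lhs => rw [h5]
      rw [map_smul]
    rw [h6, map_smul, h2]

include F hD hB hdiam in
/-- **the fibre integral over the base point** -/
theorem fib_value {T : Z → Frm e D n} (hT : (Dif.lin Z).Map (S2I3.dFr e D (2 * n + 1)) T)
    {th : H → CoC.Em n} {K' : Set H} {ξo : CoC.Em n} (hC : Cap n th K' ξo)
    (bH : Basis (Fin (2 * n + 1)) ℝ H) {x : Z} (hx : foot (T x).v = p) :
    |JJ bH (fun y => Fm.pull (ContinuousLinearMap.inr ℝ Z H)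
      ((WR.B0 F D (FE.FF F hD hB hdiam hl hJ hρ a)).val (Wv T hC.norm) (x, y)))| =
      FE.kap n a := by
  set L := lip hx with hL
  have hinj : Function.Injective (L : CoC.Em n → TangentSpace 𝓘(ℝ, E) p) := L.injective
  have hne : L (CoC.bE n 0) ≠ 0 := by
    rw [← norm_ne_zero_iff, L.norm_map, CoC.norm_bE]
    exact one_ne_zero
  let _ : MeasurableSpace (TangentSpace 𝓘(ℝ, E) p) := borel _
  have _ : BorelSpace (TangentSpace 𝓘(ℝ, E) p) := ⟨rfl⟩
  have hang := hJ.os.ang a
  have hval : ∀ y, Fm.pull (ContinuousLinearMap.inr ℝ Z H)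
      ((WR.B0 F D (FE.FF F hD hB hdiam hl hJ hρ a)).val (Wv T hC.norm) (x, y)) =
      pb th (pb L.toContinuousLinearMap (FE.psi n a Pi o)) y := by
    intro y
    rw [val_fibre _ x y hT hC]
    have hu : Sm (fun y => L (th y)) y :=
      Sm.of_contDiff (L.toContinuousLinearMap.contDiff.comp hC.smooth) y
    have h1 := FE.B0_sphere F hD hB hdiam hl hJ hρ a (u := fun y => L (th y))
      (U := fun y => Wv T hC.norm (x, y)) (x := y) hu
      (Eventually.of_forall fun y => ⟨hx, (lip_apply hx (th y)).symm⟩)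
    refine Eq.trans h1 ?_
    exact pb_comp (f := th) (g := L.toContinuousLinearMap) _
      L.toContinuousLinearMap.differentiableAt (hC.smooth.differentiable (by simp) y)
  rw [JJ_congr bH hval, hC.deg bH _ (hang.smooth_pb (T := L.toContinuousLinearMap) hinj)
    (hang.hom_pb (T := L.toContinuousLinearMap) hinj)]
  exact hang.kappa L (L (CoC.bE n 0)) hne (Pi_lip F hD hB hdiam hJ hx)

end Value

end

end Vale.Agent.P231.S3B
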