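import Vale.Agent.P231.S3B.Gen2

/-!
# P231, stage 3, block B: the value of `t₂` on the corner loops, over a box (final form)
-/

set_option maxSynthPendingDepth 3
set_option linter.unusedSectionVars false
set_option linter.unusedVariables false

open Bundle Manifold Set Filter Module MeasureTheory
open scoped ContDiff Manifold Topology ENNReal

namespace Vale.Agent.P231.S3B

noncomputable section

open Vale.Agent.P234 Vale.Agent.P231 Vale.Agent.P231.Fm Vale.Agent.P231.W Vale.Agent.P231.WR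
open Vale.Agent.P231.TW (JJ JJ_congr JJ_zero)
open Vale.Agent.P231.S3B1 (GY dGY cl lf_cl cl_eq gm_rev upo thc thc_contDiff thc_of_le thc_of_ge
  Scl Scl_nonneg LF)
open Vale.Agent.P231.S3L Vale.Agent.P231.S3B4

variable {E : Type*} [NormedAddCommGroup E] [NormedSpace ℝ E]
  {M : Type*} [MetricSpace M] [ChartedSpace E M]
  [RiemannianBundle (fun x : M => TangentSpace 𝓘(ℝ, E) x)]
  {e : ∀ x : M, TangentSpace 𝓘(ℝ, E) x → M}
  [FiniteDimensional ℝ E] [IsManifold 𝓘(ℝ, E) ∞ M]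
  [IsContMDiffRiemannianBundle 𝓘(ℝ, E) ∞ E (fun x : M => TangentSpace 𝓘(ℝ, E) x)]
  [CompactSpace M] [ConnectedSpace M] [IsRiemannianManifold 𝓘(ℝ, E) M] {D : ℝ} {n : ℕ}

variable (F : Facts e) (hD : 0 < D) (hB : InjGE e D) (hdiam : ∀ p q : M, dist p q ≤ D)

/-! ### the pieces of the corner loops -/

section Pieces

variable (y : GY e D) {r : ℝ} (hr : r ∈ Ioo (0 : ℝ) 1)
include hD hB hdiam hr

theorem cl_zero : cl F y (1 / 4 * r) = gm e (y.u 0, D * thc r) := by
  have h1 := cl_eq F hD hB hdiam y (t := 1 / 4 * r) (i := 0) (by push_cast; linarith [hr.1])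
    (by push_cast; linarith [hr.2])
  rw [h1]
  have h2 : 4 * (1 / 4 * r) - ((0 : ℤ) : ℝ) = r := by push_cast; ring
  rw [h2]
  rfl

theorem cl_one : cl F y (1 / 4 + 1 / 4 * r) = gm e (y.u 1, D - D * thc r) := by
  have h1 := cl_eq F hD hB hdiam y (t := 1 / 4 + 1 / 4 * r) (i := 1)
    (by push_cast; linarith [hr.1]) (by push_cast; linarith [hr.2])
  rw [h1]
  have h2 : 4 * (1 / 4 + 1 / 4 * r) - ((1 : ℤ) : ℝ) = r := by push_cast; ring
  rw [h2]
  exact gm_rev F hD hB hdiam y 1 _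

theorem cl_two : cl F y (1 / 2 + 1 / 4 * r) = gm e (y.u 2, D * thc r) := by
  have h1 := cl_eq F hD hB hdiam y (t := 1 / 2 + 1 / 4 * r) (i := 2)
    (by push_cast; linarith [hr.1]) (by push_cast; linarith [hr.2])
  rw [h1]
  have h2 : 4 * (1 / 2 + 1 / 4 * r) - ((2 : ℤ) : ℝ) = r := by push_cast; ring
  rw [h2]
  rfl

theorem cl_three : cl F y (3 / 4 + 1 / 4 * r) = gm e (y.u 3, D - D * thc r) := by
  have h1 := cl_eq F hD hB hdiam y (t := 3 / 4 + 1 / 4 * r) (i := 3)
    (by push_cast; linarith [hr.1]) (by push_cast; linarith [hr.2])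
  rw [h1]
  have h2 : 4 * (3 / 4 + 1 / 4 * r) - ((3 : ℤ) : ℝ) = r := by push_cast; ring
  rw [h2]
  exact gm_rev F hD hB hdiam y 3 _

end Pieces

theorem at_const_UT (v : UT E M) : (dUT E M).At (fun _ : ℝ => v) 0 :=
  WR.at_iff.2 (Eventually.of_forall fun _ => contMDiffAt_const)

/-- constant maps are plots of `GY` -/
theorem at_const_GY (y : GY e D) : (dGY e D).At (fun _ : ℝ => y) 0 := fun j =>
  at_const_UT (y.u j)

/-! ### the value -/

section Main

variable (hl : ∀ x y : M, dist x y = D → finrank ℝ (H775.Pl e D x y) = 2 * n + 2)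
  {p : M} {Pi : TangentSpace 𝓘(ℝ, E) p → TangentSpace 𝓘(ℝ, E) p →L[ℝ] TangentSpace 𝓘(ℝ, E) p}
  {o : TangentSpace 𝓘(ℝ, E) p → Fm.Lam (TangentSpace 𝓘(ℝ, E) p)}
  {ρ : TangentSpace 𝓘(ℝ, E) p → ℝ} {r₀ : ℝ}
  (hJ : FE.LineP e D p n Pi o) (hρ : WE.Rho e D p ρ r₀) (a : ℝ)

variable {Z H : Type} [NormedAddCommGroup Z] [NormedSpace ℝ Z] [FiniteDimensional ℝ Z]
  [MeasurableSpace Z] [BorelSpace Z] [NormedAddCommGroup H] [NormedSpace ℝ H]
  [FiniteDimensional ℝ H] [MeasurableSpace H] [BorelSpace H]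

/-- **the value of `t₂` on the corner loops, over a box** -/
theorem box_cl (hn : 2 ≤ n) {v : Z → UT E M} (hv : (Dif.lin Z).Map (dUT E M) v)
    {W : Fin 3 → Z × H → UT E M} {K' : Set H} (hK' : IsCompact K') (hW : ∀ i, Pv e D v (W i) K')
    {G : Z × (H × (H × H)) → GY e D} (e0 : ∀ z, (G z).u 0 = v z.1)
    (e1 : ∀ (i : Fin 3) z, (G z).u i.succ = W i (pj i z))
    {K1 : Set Z} (hK1 : IsCompact K1) {vo : UT E M} (hvo : ∀ x ∉ K1, v x = vo)
    (bX : Basis (Fin (2 * n + 2)) ℝ Z) (bH : Basis (Fin (2 * n + 1)) ℝ H) {N : ℕ}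
    (b : Basis (Fin N) ℝ (Z × (H × (H × H)))) {x₀ : Z}
    (hval : ∀ i, |JJ bH (fun y => (WR.B0 F D (FE.FF F hD hB hdiam hl hJ hρ a)).val
      (fun y => W i (x₀, y)) y)| = FE.kap n a) :
    |JJ b (fun z => (T2n (fun q : GY e D × ℝ => cl F q.1 q.2) (lf_cl F hD hB hdiam).smooth
      (FE.FF F hD hB hdiam hl hJ hρ a)).val G z)| =
      3 * FE.kap n a ^ 3 *
        |JJ bX (fun x => (FE.FF F hD hB hdiam hl hJ hρ a).val (fun x => foot (v x)) x)| := by
  set FF := FE.FF F hD hB hdiam hl hJ hρ a with hFF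
  have hFd : FF.d = 0 := FE.FF_d F hD hB hdiam hl hJ hρ a
  have hFk : Form.IsDeg (2 * n + 1 + 1) FF := CoC.FF_isDeg F hD hB hdiam hl hJ hρ a
  have hZ : finrank ℝ Z = 2 * n + 2 := finrank_eq_card_basis bX |>.trans (Fintype.card_fin _)
  have hH : finrank ℝ H = 2 * n + 1 := finrank_eq_card_basis bH |>.trans (Fintype.card_fin _)
  have : Nontrivial H := nontrivial_of_finrank_pos (R := ℝ) (by omega)
  have : NoncompactSpace H := NormedSpace.noncompactSpace ℝ H
  obtain ⟨yo, hyo⟩ : ∃ y, y ∉ K' := by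
    by_contra hcon
    push Not at hcon
    exact noncompact_univ H ((eq_univ_of_forall hcon) ▸ hK')
  have hGm : (Dif.lin (Z × (H × (H × H)))).Map (dGY e D) G := map_of_parts e0 e1 hv hW
  have hbx := bx_gen F hD hB hdiam hl hW hGm e0 e1 hK' hK1 hvo hZ hH
  -- the basis
  have hN : N = 2 * n + 1 + (2 * n + 1) + (2 * n + 1) + (2 * n + 2) := by
    have h1 := finrank_eq_card_basis b
    rw [finrank_prod, finrank_prod, finrank_prod, hZ, hH, Fintype.card_fin] at h1
    omega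
  subst hN
  rw [TW.abs_JJ_basis (TW.pB bX (TW.pB bH (TW.pB bH bH))) b]
  -- the universal family
  set c : GY e D → ℝ → M := cl F with hc
  have hlf := lf_cl F hD hB hdiam
  let S' : NNReal := ⟨Scl D, Scl_nonneg hD⟩
  let s : GY e D → LL (dM E M) S' ⊤ 1 1 := hlf.toLL at_const_GY (S' := S') (W := ⊤) (δ := 1)
    (J := 1) le_rfl (fun _ => le_top) (a := fun _ _ => 1) fun _ => ⟨0, by simp⟩
  have ha1 : (dGY e D).Map (Dif.lin (Fin 1 → ℂ)) (fun _ _ => (1 : ℂ)) :=
    fun {V} _ _ _ {u x} _ => Sm.of_contDiff contDiff_const x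
  have hs : (dGY e D).Map (dLL (dM E M) S' ⊤ 1 1) s := hlf.map_toLL at_const_GY le_rfl
    (fun _ => le_top) (fun _ => ⟨0, by simp⟩) ha1
  have hT2 : T2n (fun q : GY e D × ℝ => cl F q.1 q.2) hlf.smooth FF =
      Form.pull s hs (t2L S' ⊤ 1 1 FF) := (pull_t2L hs FF).symm
  rw [hT2]
  have hev : ∀ (y : GY e D) (t : ℝ), ev0 (flw (A := actL (dM E M) S' ⊤ 1 1) (s y, 1 * t)) =
      cl F y t := fun y t => by
    change ev0 ((actL (dM E M) S' ⊤ 1 1).φ (s y) (1 * t)) = cl F y t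
    rw [one_mul, ev0_act]
    rfl
  have hev' : ∀ (y : GY e D) (t : ℝ), ev0 (flw (A := actL (dM E M) S' ⊤ 1 1) (s y, t)) =
      cl F y t := fun y t => by
    change ev0 ((actL (dM E M) S' ⊤ 1 1).φ (s y) t) = cl F y t
    rw [ev0_act]
    rfl
  have hB0k : Form.IsDeg (2 * n + 1) (WR.B0 F D FF) := Co.isDeg_KT D (hFk.pull _ _)
  have hB0k' : Form.IsDeg (2 * n + 1) (WR.B0 F D FF) := hB0k
  have hthc := thc_contDiff
  have hβ : ContDiff ℝ ∞ fun r => D * thc r := contDiff_const.mul hthc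
  have hft : ∀ (y : GY e D) i, gm e (y.u i, 0) = gm e (y.u 0, 0) := fun y i => by
    rw [gm_zero F, gm_zero F, y.ft]
  have key := box_paths (Z := Z) (H := H) (Y := GY e D) (U := UT E M) (D := dGY e D)
    (DU := dUT E M) (DM := dM E M) (T := 1) one_ne_zero
    (S3L.isFlow (actL (dM E M) S' ⊤ 1 1)) (univ_con_flow one_pos)
    ((univ (dM E M) S' ⊤ 1 1).con_sg one_pos) map_ev0 (l := 2 * n + 1) ⟨n, rfl⟩ hFk hFd hs
    (map_gm F) (R := D) (β := fun r => D * thc r) hβ
    (by simp only [thc_of_le (r := 0) (by norm_num), mul_zero])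
    (by simp only [thc_of_ge (r := 1) (by norm_num), mul_one])
    (βr := fun r => D - D * thc r) (contDiff_const.sub hβ)
    (by simp only [thc_of_le (r := 0) (by norm_num), mul_zero, sub_zero])
    (by simp only [thc_of_ge (r := 1) (by norm_num), mul_one, sub_self])
    (u := fun i y => y.u i) (fun i => S3B1.map_u i) (fun i y => hft y i)
    (fun i y => y.br i)
    (fun y r hr => by
      rw [hev']
      exact cl_zero F hD hB hdiam y hr)
    (fun y r hr => by
      rw [hev']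
      exact cl_one F hD hB hdiam y hr)
    (fun y r hr => by
      rw [hev']
      exact cl_two F hD hB hdiam y hr)
    (fun y r hr => by
      rw [hev', mul_one]
      exact cl_three F hD hB hdiam y hr)
    bX bH (m := 6 * n + 6) (by omega) hbx hv (W := W) (fun i => (hW i).map) e0 e1 hK1
    (fun x hx => by
      have h1 : ∀ᶠ x' in 𝓝 x, gm e (v x', 0) = foot vo := by
        have h2 : ∀ᶠ x' in 𝓝 x, x' ∉ K1 := hK1.isClosed.isOpen_compl.mem_nhds hx
        filter_upwards [h2] with x' hx'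
        rw [gm_zero F, hvo x' hx']
      refine TH.val_const hFk ?_ h1
      exact map_gm F (u := fun x => (v x, (0 : ℝ)))
        ⟨hv (u := id) (Sm.of_contDiff contDiff_id x), Sm.of_contDiff contDiff_const _⟩)
    hK' (fun i x y hy => val_fibre_out (hW i) hK' hB0k x hy)
    (c := fun i => JJ bH (fun y => (WR.B0 F D FF).val (fun y => W i (x₀, y)) y))
    (fun i x => by
      have h1 := fib_const' F (hW i) hFd hFk hK' hyo bH x x₀
      refine h1.trans (JJ_congr bH fun y => ?_)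
      exact val_fibre' (hW i) _ x₀ y)
  have key' : JJ (TW.pB bX (TW.pB bH (TW.pB bH bH))) (fun z => (Form.pull s hs
      (t2L S' ⊤ 1 1 FF)).val G z) = _ := key
  rw [key']
  have hP : ∀ x, FF.val (fun x => gm e (v x, 0)) x = FF.val (fun x => foot (v x)) x := fun x => by
    congr 1
    funext x
    exact gm_zero F (v x)
  rw [JJ_congr bX hP, abs_mul, abs_mul, abs_neg, abs_mul, abs_mul, hval 0, hval 1, hval 2,
    abs_of_pos (show (0 : ℝ) < 3 by norm_num)]
  ring

end Main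

end

end Vale.Agent.P231.S3B
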