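import Vale.Agent.P231.S3B.Val

/-!
# P231, stage 3, block B: families of loops which are concatenations of four paths

`four_paths`: abstract version. `U` is a space with a map `g : U × ℝ → M` (the geodesics), the
loop of `y` is the concatenation of `g (u₀ y, ·)`, `g (u₁ y, ·)` reversed, `g (u₂ y, ·)` and
`g (u₃ y, ·)` reversed, all on `[0, R]`, with a parametrisation `β`.
-/

set_option linter.unusedSectionVars false
set_option linter.unusedVariables false

open MeasureTheory Set Module Filter Topology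
open scoped ContDiff

namespace Vale.Agent.P231.S3B

open Fm W H584

variable {Y U M X : Type*} {D : Dif Y} {DU : Dif U} {DM : Dif M} {DX : Dif X}

theorem EqI.at1' {w w' : Form (D.prod (Dif.lin ℝ))} (h : EqI w w') : at_ 1 w = at_ 1 w' :=
  Form.ext_val fun E _ _ _ u x hu => by
    rw [at_, at_, Form.slice_val _ _ hu, Form.slice_val _ _ hu, h E u x hu 1 ⟨zero_le_one, le_rfl⟩]

/-- the end points of a path -/
theorem map_end {g : U × ℝ → M} (hg : (DU.prod (Dif.lin ℝ)).Map DM g) {u : Y → U}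
    (hu : D.Map DU u) (c : ℝ) : D.Map DM (fun y => g (u y, c)) := fun {E} _ _ _ {v x} hv =>
  hg (Form.map_slice c (hu hv))

/-- the form of the forward path -/
noncomputable def fw {g : U × ℝ → M} (hg : (DU.prod (Dif.lin ℝ)).Map DM g) {β : ℝ → ℝ}
    (hβ : ContDiff ℝ ∞ β) (F : Form DM) : Form (DU.prod (Dif.lin ℝ)) :=
  Form.pull (fun p : U × ℝ => (p.1, β p.2)) (map_rep hβ) (Form.pull g hg F)

/-- a piece of the loop is given by the path `u`, parametrised by `β` -/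
theorem piece {g : U × ℝ → M} (hg : (DU.prod (Dif.lin ℝ)).Map DM g) {β : ℝ → ℝ}
    (hβ : ContDiff ℝ ∞ β) (F : Form DM) {u : Y → U} (hu : D.Map DU u) {C : Y × ℝ → M}
    (hC : (D.prod (Dif.lin ℝ)).Map DM C) {a b c : ℝ} (hc : b - a = c)
    (h : ∀ y, ∀ r ∈ Ioo (0 : ℝ) 1, C (y, a + c * r) = g (u y, β r)) :
    seg a b (Form.pull C hC F) = Form.pull u hu (seg (β 0) (β 1) (Form.pull g hg F)) ∧
      self (pc a b (Form.pull C hC F)) = Form.pull u hu (self (fw hg hβ F)) ∧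
      at_ a (Form.pull C hC F) = Form.pull (fun y => g (u y, β 0)) (map_end hg hu _) F ∧
      at_ b (Form.pull C hC F) = Form.pull (fun y => g (u y, β 1)) (map_end hg hu _) F := by
  subst hc
  have hg1 : (D.prod (Dif.lin ℝ)).Map DM (fun p => g (u p.1, β p.2)) := fun {E} _ _ _ {v x} hv =>
    hg (map_rep hβ (map_cyl hu hv))
  have hC1 : (D.prod (Dif.lin ℝ)).Map DM (fun p => C (aff a b p)) := fun {E} _ _ _ {v x} hv =>
    hC (map_aff a b hv)
  have e1 : pc a b (Form.pull C hC F) = Form.pull _ hC1 F :=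
    pull_pull (map_aff a b) hC hC1 (fun _ => rfl) F
  have e2 : Form.pull (fun p : Y × ℝ => (u p.1, p.2)) (map_cyl hu) (fw hg hβ F) =
      Form.pull _ hg1 F := by
    have h3 : (DU.prod (Dif.lin ℝ)).Map DM (fun p => g (p.1, β p.2)) := fun {E} _ _ _ {v x} hv =>
      hg (map_rep hβ hv)
    have h4 : fw hg hβ F = Form.pull _ h3 F := pull_pull (map_rep hβ) hg h3 (fun _ => rfl) F
    rw [h4]
    exact pull_pull (map_cyl hu) h3 hg1 (fun _ => rfl) F
  have e3 : EqI (pc a b (Form.pull C hC F))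
      (Form.pull (fun p : Y × ℝ => (u p.1, p.2)) (map_cyl hu) (fw hg hβ F)) := by
    rw [e1, e2]
    exact EqI.of_pull hC1 hg1 (fun y t ht => h y t ht) F
  have e4 : ∀ c, at_ c (Form.pull (fun p : Y × ℝ => (u p.1, p.2)) (map_cyl hu) (fw hg hβ F)) =
      Form.pull (fun y => g (u y, β c)) (map_end hg hu _) F := fun c => by
    rw [e2]
    exact pull_pull (Form.map_slice c) hg1 (map_end hg hu _) (fun _ => rfl) F
  refine ⟨?_, ?_, ?_, ?_⟩
  · have h5 : Form.K (fw hg hβ F) = seg (β 0) (β 1) (Form.pull g hg F) := K_rep hβ _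
    rw [seg, e3.K, K_nat hu, h5]
  · rw [e3.self, self_nat hu]
  · have h5 := e3.at0
    rw [at_pc, mul_zero, add_zero, e4] at h5
    exact h5
  · have h5 := e3.at1'
    rw [at_pc, mul_one, add_sub_cancel, e4] at h5
    exact h5

variable {T : ℝ} {Φ : X × ℝ → X}

/-- **the value of `t₂` on a family of loops with four pieces** -/
theorem four_paths' {V : Type*} [AddCommGroup V] [Module ℝ V] (hT : T ≠ 0) (h : IsFlow DX T Φ)
    {α : Form DX} (hα : Form.pull Φ h.map α = pr α + dt) (hαo : α.sg = -α)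
    {ev : X → M} (hev : DX.Map DM ev) {F : Form DM} (hFe : F.sg = F) (hFd : F.d = 0)
    {s : Y → X} (hs : D.Map DX s)
    -- the paths
    {g : U × ℝ → M} (hg : (DU.prod (Dif.lin ℝ)).Map DM g) {R : ℝ} {β : ℝ → ℝ}
    (hβ : ContDiff ℝ ∞ β) (hβ0 : β 0 = 0) (hβ1 : β 1 = R)
    {βr : ℝ → ℝ} (hβr : ContDiff ℝ ∞ βr) (hβr0 : βr 0 = R) (hβr1 : βr 1 = 0)
    {u : Fin 4 → Y → U} (hu : ∀ i, D.Map DU (u i))
    (hst : ∀ i y, g (u i y, 0) = g (u 0 y, 0)) (hen : ∀ i y, g (u i y, R) = g (u 0 y, R))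
    (h0 : ∀ y, ∀ r ∈ Ioo (0 : ℝ) 1, ev (Φ (s y, T / 4 * r)) = g (u 0 y, β r))
    (h1 : ∀ y, ∀ r ∈ Ioo (0 : ℝ) 1, ev (Φ (s y, T / 4 + T / 4 * r)) = g (u 1 y, βr r))
    (h2 : ∀ y, ∀ r ∈ Ioo (0 : ℝ) 1, ev (Φ (s y, T / 2 + T / 4 * r)) = g (u 2 y, β r))
    (h3 : ∀ y, ∀ r ∈ Ioo (0 : ℝ) 1, ev (Φ (s y, 3 * T / 4 + T / 4 * r)) = g (u 3 y, βr r))
    -- the functional
    (I : Form D →ₗ[ℝ] V) (hd : ∀ w : Form D, I w.d = 0) (A : Fin 3 → Subalgebra ℝ (Form D))
    (hA : ∀ k, ∀ w ∈ A k, I w = 0)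
    (hAu : ∀ (k : Fin 3) (i : Fin 4), i ≠ k.succ → ∀ w, Form.pull (u i) (hu i) w ∈ A k)
    (hm : ∀ x m₁ : Form D, x.sg = -x → x.d = 0 → m₁.sg = m₁ → m₁.d = 0 →
      I (x * m₁ * (Form.pull (fun y => g (u 0 y, 0)) (map_end hg (hu 0) 0) F) ^ 2) = 0) :
    I (Form.pull s hs (t2 2 Φ h.map T (Form.pull ev hev F))) =
      (3 : ℝ) • I (Form.pull (u 1) (hu 1) (KT R (Form.pull g hg F)) *
        Form.pull (u 2) (hu 2) (KT R (Form.pull g hg F)) *
        Form.pull (u 3) (hu 3) (KT R (Form.pull g hg F)) *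
        Form.pull (fun y => g (u 0 y, 0)) (map_end hg (hu 0) 0) F) := by
  have hC : (D.prod (Dif.lin ℝ)).Map DM (fun p => ev (Φ (s p.1, p.2))) := fun {E} _ _ _ {v x} hv =>
    hev (map_fam h.map hs hv)
  set G : Form (D.prod (Dif.lin ℝ)) := Form.pull _ hC F with hG
  have hGe : G.sg = G := by rw [hG, ← Form.pull_sg, hFe]
  have hGd : G.d = 0 := by
    rw [hG, ← Form.pull_d, hFd]
    exact map_zero (Form.pullA _ hC)
  have hGs : Form.pull (fun p : Y × ℝ => Φ (s p.1, p.2)) (map_fam h.map hs)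
      (Form.pull ev hev F) = G := pull_pull (map_fam h.map hs) hev hC (fun _ => rfl) F
  have hFe' : (Form.pull ev hev F).sg = Form.pull ev hev F := by rw [← Form.pull_sg, hFe]
  have hFd' : (Form.pull ev hev F).d = 0 := by
    rw [← Form.pull_d, hFd]
    exact map_zero (Form.pullA _ hev)
  obtain ⟨Z, m₁, hm1, hm2, hmain⟩ := t2_family hT h hα hαo hFe' hFd' hs hGs
  obtain ⟨p1, p2, p3, p4⟩ := piece hg hβ F (hu 0) hC (a := 0) (b := T / 4) (c := T / 4)
    (by ring) (fun y r hr => by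
      rw [zero_add]
      exact h0 y r hr)
  obtain ⟨q1, q2, q3, q4⟩ := piece hg hβr F (hu 1) hC (a := T / 4) (b := T / 2) (c := T / 4)
    (by ring) h1
  obtain ⟨r1, r2, r3, r4⟩ := piece hg hβ F (hu 2) hC (a := T / 2) (b := 3 * T / 4) (c := T / 4)
    (by ring) h2
  obtain ⟨s1, s2, s3, s4⟩ := piece hg hβr F (hu 3) hC (a := 3 * T / 4) (b := T) (c := T / 4)
    (by ring) h3
  rw [← hG] at p1 p2 p3 p4 q1 q2 q3 q4 r1 r2 r3 r4 s1 s2 s3 s4
  simp only [hβ0, hβ1, hβr0, hβr1] at p1 p2 p3 p4 q1 q2 q3 q4 r1 r2 r3 r4 s1 s2 s3 s4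
  have hpc : ∀ {f f' : Y → M} (hf : D.Map DM f) (hf' : D.Map DM f'), (∀ y, f y = f' y) →
      Form.pull f hf F = Form.pull f' hf' F := fun hf hf' hff =>
    Form.pull_congr hf hf' (funext hff) F
  set P := Form.pull (fun y => g (u 0 y, 0)) (map_end hg (hu 0) 0) F with hP
  set Q := Form.pull (fun y => g (u 0 y, R)) (map_end hg (hu 0) R) F with hQ
  have e2P : Form.pull (fun y => g (u 2 y, 0)) (map_end hg (hu 2) 0) F = P := hpc _ _ (hst 2)
  have e3Q : Form.pull (fun y => g (u 3 y, R)) (map_end hg (hu 3) R) F = Q := hpc _ _ (hen 3)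
  have e3P : Form.pull (fun y => g (u 3 y, 0)) (map_end hg (hu 3) 0) F = P := hpc _ _ (hst 3)
  rw [e2P] at r3
  rw [e3Q] at s3
  rw [e3P] at s4
  set B := KT R (Form.pull g hg F) with hB
  have hB1 : seg 0 R (Form.pull g hg F) = B := (KT_eq_seg R _).symm
  have hB2 : seg R 0 (Form.pull g hg F) = -B := by rw [seg_swap, hB1]
  rw [hB1] at p1 r1
  rw [hB2] at q1 s1
  have hneg : ∀ i, Form.pull (u i) (hu i) (-B) = -Form.pull (u i) (hu i) B := fun i =>
    map_neg (Form.pullA (u i) (hu i)) B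
  rw [hneg] at q1 s1
  have hBo : B.sg = -B := by
    rw [hB, KT_sg, ← Form.pull_sg, hFe]
  have huo : ∀ i, (Form.pull (u i) (hu i) B).sg = -Form.pull (u i) (hu i) B := fun i => by
    rw [← Form.pull_sg, hBo, hneg]
  -- the differentials
  have hdseg : ∀ a b : ℝ, (seg a b G).d = at_ b G - at_ a G := fun a b => by
    have h5 := homotopy' (pc a b G)
    have h6 : (pc a b G).d = 0 := by
      rw [← pc_d, hGd]
      exact map_zero (Form.pullA _ (map_aff a b))
    rw [h6, K_zero, zero_add, at_pc, at_pc, mul_one, mul_zero, add_zero, add_sub_cancel] at h5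
    exact h5.symm
  have da := hdseg 0 (T / 4)
  have db := hdseg (T / 4) (T / 2)
  have dc := hdseg (T / 2) (3 * T / 4)
  have de := hdseg (3 * T / 4) T
  rw [p4, p3, p1] at da
  rw [r3, p4, q1] at db
  rw [s3, r3, r1] at dc
  rw [s4, s3, s1] at de
  set a := Form.pull (u 0) (hu 0) B with ha
  set b := Form.pull (u 1) (hu 1) B with hb
  set c := Form.pull (u 2) (hu 2) B with hc
  set e := Form.pull (u 3) (hu 3) B with he
  -- the sum over the pieces
  let t : ℕ → ℝ := fun i => i * (T / 4)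
  have t0 : t 0 = 0 := by simp [t]
  have t1 : t 1 = T / 4 := by simp [t]
  have t2 : t 2 = T / 2 := by simp [t]; ring
  have t3 : t 3 = 3 * T / 4 := by simp [t]; ring
  have t4 : t 4 = T := by simp [t]; ring
  have hcat := iter_cat hGe hGd (t := t) t0 4
  simp only [Finset.sum_range_succ, Finset.sum_range_zero, zero_add, t0, t1, t2, t3, t4] at hcat
  have k1 : KT (T / 4) G = a := by rw [KT_eq_seg, p1]
  have k2 : KT (T / 2) G = a + -b := by rw [KT_eq_seg, ← seg_add 0 (T / 4) (T / 2), p1, q1]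
  have k3 : KT (3 * T / 4) G = a + -b + c := by
    rw [KT_eq_seg, ← seg_add 0 (T / 2) (3 * T / 4), ← seg_add 0 (T / 4) (T / 2), p1, q1, r1]
  have k4 : KT T G = a + -b + c + -e := by
    rw [KT_eq_seg, ← seg_add 0 (3 * T / 4) T, ← seg_add 0 (T / 2) (3 * T / 4),
      ← seg_add 0 (T / 4) (T / 2), p1, q1, r1, s1]
  rw [k1, k2, k3, p1, q1, r1, s1, p2, q2, r2, s2, p3, p4, r3, s3, s4, KT_zero_time, zero_mul,
    zero_mul, zero_mul, zero_add] at hcat
  rw [k4, p3, hcat] at hmain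
  have hper : at_ T G = at_ 0 G := by rw [s4, p3]
  have hxo : (a + -b + c + -e).sg = -(a + -b + c + -e) := by rw [← k4, x_odd hGe]
  have hxd : (a + -b + c + -e).d = 0 := by rw [← k4, x_closed hGd hper]
  set W := a * Form.K (Pm (pc (T / 4) (T / 2) G) * pc (T / 4) (T / 2) G) +
    (a + -b) * Form.K (Pm (pc (T / 2) (3 * T / 4) G) * pc (T / 2) (3 * T / 4) G) +
    (a + -b + c) * Form.K (Pm (pc (3 * T / 4) T G) * pc (3 * T / 4) T G) with hW
  have hPA : ∀ k, P ∈ A k := fun k => by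
    have h5 : P = Form.pull (u 0) (hu 0) (Form.pull (fun v => g (v, 0)) (map_end hg (fun h => h) 0)
        F) := (pull_pull (hu 0) (map_end hg (fun h => h) 0) (map_end hg (hu 0) 0)
        (fun _ => rfl) F).symm
    rw [h5]
    exact hAu k 0 (Fin.succ_ne_zero k).symm _
  have hQA : ∀ k, Q ∈ A k := fun k => by
    have h5 : Q = Form.pull (u 0) (hu 0) (Form.pull (fun v => g (v, R)) (map_end hg (fun h => h) R)
        F) := (pull_pull (hu 0) (map_end hg (fun h => h) R) (map_end hg (hu 0) R)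
        (fun _ => rfl) F).symm
    rw [h5]
    exact hAu k 0 (Fin.succ_ne_zero k).symm _
  have hn1 : ∀ k : Fin 3, k ≠ 0 → (1 : Fin 4) ≠ k.succ := by decide
  have hn2 : ∀ k : Fin 3, k ≠ 1 → (2 : Fin 4) ≠ k.succ := by decide
  have hn3 : ∀ k : Fin 3, k ≠ 2 → (3 : Fin 4) ≠ k.succ := by decide
  have hval := value_alg I hd A hA (a := a) (b := -b) (c := c) (e := -e) (P := P) (Q := Q)
    (sa := Form.pull (u 0) (hu 0) (self (fw hg hβ F)))
    (sb := Form.pull (u 1) (hu 1) (self (fw hg hβr F)))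
    (sc := Form.pull (u 2) (hu 2) (self (fw hg hβ F)))
    (se := Form.pull (u 3) (hu 3) (self (fw hg hβr F)))
    (fun k => hAu k 0 (Fin.succ_ne_zero k).symm _)
    (fun k hk => Subalgebra.neg_mem _ (hAu k 1 (hn1 k hk) _))
    (fun k hk => hAu k 2 (hn2 k hk) _)
    (fun k hk => Subalgebra.neg_mem _ (hAu k 3 (hn3 k hk) _))
    hPA hQA (huo 0) (by rw [Form.sg_neg, huo 1]) (huo 2) (by rw [Form.sg_neg, huo 3])
    da db dc de (fun k => hAu k 0 (Fin.succ_ne_zero k).symm _)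
    (fun k hk => hAu k 1 (hn1 k hk) _) (fun k hk => hAu k 2 (hn2 k hk) _)
    (fun k hk => hAu k 3 (hn3 k hk) _)
  have hfin : -b * c * -e * P = b * c * e * P := by
    simp only [neg_mul, mul_neg, neg_neg]
  rw [hfin] at hval
  rw [← hval, hmain, map_add, hd, add_zero, map_sub, map_smul, hm _ _ hxo hxd hm1 hm2, smul_zero,
    sub_zero, mul_add, map_add, odd_mul_d hxo hxd, hd, add_zero]
  have hP1 : P + Q + P = (2 : ℝ) • P + Q := by rw [two_smul]; abel
  have hP2 : P + P + Q = (2 : ℝ) • P + Q := by rw [two_smul]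
  rw [hP1, hP2]
  congr 2
  abel

/-- **the value of `t₂` on a family of loops with four pieces**, the reversed pieces with the
reversed parametrisation -/
theorem four_paths {V : Type*} [AddCommGroup V] [Module ℝ V] (hT : T ≠ 0) (h : IsFlow DX T Φ)
    {α : Form DX} (hα : Form.pull Φ h.map α = pr α + dt) (hαo : α.sg = -α)
    {ev : X → M} (hev : DX.Map DM ev) {F : Form DM} (hFe : F.sg = F) (hFd : F.d = 0)
    {s : Y → X} (hs : D.Map DX s)
    -- the paths
    {g : U × ℝ → M} (hg : (DU.prod (Dif.lin ℝ)).Map DM g) {R : ℝ} {β : ℝ → ℝ}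
    (hβ : ContDiff ℝ ∞ β) (hβ0 : β 0 = 0) (hβ1 : β 1 = R)
    {u : Fin 4 → Y → U} (hu : ∀ i, D.Map DU (u i))
    (hst : ∀ i y, g (u i y, 0) = g (u 0 y, 0)) (hen : ∀ i y, g (u i y, R) = g (u 0 y, R))
    (h0 : ∀ y, ∀ r ∈ Ioo (0 : ℝ) 1, ev (Φ (s y, T / 4 * r)) = g (u 0 y, β r))
    (h1 : ∀ y, ∀ r ∈ Ioo (0 : ℝ) 1, ev (Φ (s y, T / 4 + T / 4 * r)) = g (u 1 y, β (1 - r)))
    (h2 : ∀ y, ∀ r ∈ Ioo (0 : ℝ) 1, ev (Φ (s y, T / 2 + T / 4 * r)) = g (u 2 y, β r))
    (h3 : ∀ y, ∀ r ∈ Ioo (0 : ℝ) 1, ev (Φ (s y, 3 * T / 4 + T / 4 * r)) = g (u 3 y, β (1 - r)))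
    -- the functional
    (I : Form D →ₗ[ℝ] V) (hd : ∀ w : Form D, I w.d = 0) (A : Fin 3 → Subalgebra ℝ (Form D))
    (hA : ∀ k, ∀ w ∈ A k, I w = 0)
    (hAu : ∀ (k : Fin 3) (i : Fin 4), i ≠ k.succ → ∀ w, Form.pull (u i) (hu i) w ∈ A k)
    (hm : ∀ x m₁ : Form D, x.sg = -x → x.d = 0 → m₁.sg = m₁ → m₁.d = 0 →
      I (x * m₁ * (Form.pull (fun y => g (u 0 y, 0)) (map_end hg (hu 0) 0) F) ^ 2) = 0) :
    I (Form.pull s hs (t2 2 Φ h.map T (Form.pull ev hev F))) =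
      (3 : ℝ) • I (Form.pull (u 1) (hu 1) (KT R (Form.pull g hg F)) *
        Form.pull (u 2) (hu 2) (KT R (Form.pull g hg F)) *
        Form.pull (u 3) (hu 3) (KT R (Form.pull g hg F)) *
        Form.pull (fun y => g (u 0 y, 0)) (map_end hg (hu 0) 0) F) :=
  four_paths' hT h hα hαo hev hFe hFd hs hg hβ hβ0 hβ1
    (βr := fun r => β (1 - r)) (hβ.comp (contDiff_const.sub contDiff_id))
    (by simp only [sub_zero]; exact hβ1) (by simp only [sub_self]; exact hβ0)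
    hu hst hen h0 h1 h2 h3 I hd A hA hAu hm

end Vale.Agent.P231.S3B
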