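import Vale.Agent.P231.S3B.GcS
import Vale.Agent.P231.S3B4c.Main

/-!
# P231, stage 3, block B: the isometric frames given by orthonormal families of vectors
-/

set_option maxSynthPendingDepth 3
set_option linter.unusedSectionVars false
set_option linter.unusedVariables false

open Bundle Manifold Set Filter Module MeasureTheory
open scoped ContDiff Manifold Topology ENNReal

namespace Vale.Agent.P231.S3B

noncomputable section

open Vale.Agent.P234 Vale.Agent.P231 Vale.Agent.P231.Fm Vale.Agent.P231.W Vale.Agent.P231.WR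
open Vale.Agent.P231.S2II (Eul)
open Vale.Agent.P231.S3B4c (Vec cmbE contDiff_cmbE norm_cmbE)

variable {E : Type*} [NormedAddCommGroup E] [NormedSpace ℝ E]
  {M : Type*} [MetricSpace M] [ChartedSpace E M]
  [RiemannianBundle (fun x : M => TangentSpace 𝓘(ℝ, E) x)]
  {e : ∀ x : M, TangentSpace 𝓘(ℝ, E) x → M}
  [FiniteDimensional ℝ E] [IsManifold 𝓘(ℝ, E) ∞ M]
  [IsContMDiffRiemannianBundle 𝓘(ℝ, E) ∞ E (fun x : M => TangentSpace 𝓘(ℝ, E) x)]
  [CompactSpace M] [ConnectedSpace M] [IsRiemannianManifold 𝓘(ℝ, E) M] {D : ℝ} {l : ℕ}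
  {F : Facts e} {ι : Type} [Fintype ι] [DecidableEq ι] {X δ : ι → UT E M → E} {ε : ℝ}
  {Z : Type} [NormedAddCommGroup Z] [NormedSpace ℝ Z] [FiniteDimensional ℝ Z]
  {v : Z → UT E M} {f : Fin l → Z → EuclideanSpace ℝ ι}

/-- **an orthonormal family of vectors gives an isometric frame** -/
theorem frf_vec (hV : Vec F D X δ ε v f) (ho : ∀ x, Orthonormal ℝ fun i => f i x) :
    Frf F D X δ ε v (fun x => (cmbE (fun i => f i x) : Eul l →L[ℝ] EuclideanSpace ℝ ι)) where
  sm := contDiff_cmbE hV.sm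
  pm x y := hV.pm_cmbE x y
  norm x y := norm_cmbE (ho x) y

end

end Vale.Agent.P231.S3B
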