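import Vale.Agent.P231.S3B.GcV
import Vale.Agent.P231.TH.S8

/-!
# P231, stage 3, block B: the value of `t₂` of the closed family over the sphere of the line
-/

set_option maxSynthPendingDepth 3
set_option linter.unusedSectionVars false
set_option linter.unusedVariables false

open Bundle Manifold Set Filter Module MeasureTheory
open scoped ContDiff Manifold Topology ENNReal

namespace Vale.Agent.P231.S3B

noncomputable section

open Vale.Agent.P234 Vale.Agent.P231 Vale.Agent.P231.Fm Vale.Agent.P231.W Vale.Agent.P231.WR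
open Vale.Agent.P231.TW (JJ JJ_congr JJ_zero abs_JJ_basis)
open Vale.Agent.P231.CoC (Em bE FrS sv)
open Vale.Agent.P231.TH (zS zS_out at_zS foot_zS integral_cS cS qS se nz)
open Vale.Agent.P231.S3B1 (GY dGY cl lf_cl)
open Vale.Agent.P231.S3L Vale.Agent.P231.S3B4 Vale.Agent.P231.S2N

variable {E : Type*} [NormedAddCommGroup E] [NormedSpace ℝ E]
  {M : Type*} [MetricSpace M] [ChartedSpace E M]
  [RiemannianBundle (fun x : M => TangentSpace 𝓘(ℝ, E) x)]
  {e : ∀ x : M, TangentSpace 𝓘(ℝ, E) x → M}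
  [FiniteDimensional ℝ E] [IsManifold 𝓘(ℝ, E) ∞ M]
  [IsContMDiffRiemannianBundle 𝓘(ℝ, E) ∞ E (fun x : M => TangentSpace 𝓘(ℝ, E) x)]
  [CompactSpace M] [ConnectedSpace M] [IsRiemannianManifold 𝓘(ℝ, E) M]

variable (F : Facts e) {D : ℝ} (hD : 0 < D) (hB : InjGE e D) (hdiam : ∀ p q : M, dist p q ≤ D)
  {n : ℕ} (hl : ∀ x y : M, dist x y = D → finrank ℝ (H775.Pl e D x y) = 2 * n + 2)
  {p : M} {Pi : TangentSpace 𝓘(ℝ, E) p → TangentSpace 𝓘(ℝ, E) p →L[ℝ] TangentSpace 𝓘(ℝ, E) p}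
  {o : TangentSpace 𝓘(ℝ, E) p → Fm.Lam (TangentSpace 𝓘(ℝ, E) p)}
  {ρ : TangentSpace 𝓘(ℝ, E) p → ℝ} {r₀ : ℝ}
  (hJ : FE.LineP e D p n Pi o) (hρ : WE.Rho e D p ρ r₀) (a : ℝ)
  {L : Em n →L[ℝ] TangentSpace 𝓘(ℝ, E) p} (hL : L ∈ FrS n Pi o)
  {K : ℕ} (P : X3.PF E M K) {c : Fin K → ℝ}
  (hc : ∀ x : Em n, nm (E := E) (cS e D L x) (se P c (cS e D L x)) ≠ 0) (v₀ : UT E M)

include F hc in
theorem map_zS : (Dif.lin (Em n)).Map (dUT E M) (zS e D L P c v₀) := by
  intro V _ _ _ u x hu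
  exact (dUT E M).comp (u := zS e D L P c v₀) (g := u) (at_zS F P hc v₀ (u x)) hu

include hL hc in
/-- the integral of the form over the sphere of the line -/
theorem JJ_zS (bX : Basis (Fin (2 * n + 2)) ℝ (Em n)) :
    |JJ bX (fun x => (FE.FF F hD hB hdiam hl hJ hρ a).val (fun x => foot (zS e D L P c v₀ x)) x)| =
      FE.kap n a := by
  rw [abs_JJ_basis (bE n).toBasis bX]
  have h1 : ∀ x, (FE.FF F hD hB hdiam hl hJ hρ a).val (fun x => foot (zS e D L P c v₀ x)) x =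
      (FE.FF F hD hB hdiam hl hJ hρ a).val (cS e D L) x := fun x => by
    congr 1
    funext y
    exact foot_zS P hc v₀ y
  rw [JJ_congr _ h1, JJ, (bE n).addHaar_eq_volume, OrthonormalBasis.coe_toBasis,
    integral_cS F hD hB hdiam hl hJ hρ a hL v₀, abs_mul, FE.kap, sv,
    finrank_euclideanSpace_fin]
  congr 1
  refine abs_of_nonneg ?_
  positivity

variable {ι : Type} [Fintype ι] [DecidableEq ι] {X δ : ι → UT E M → E} {ε : ℝ}
  (h : S2N.Fam F hD hB hdiam (2 * n + 1) X δ ε) (hN : 2 ≤ finrank ℝ E)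
  {H : Type} [NormedAddCommGroup H] [NormedSpace ℝ H] [FiniteDimensional ℝ H]
  [MeasurableSpace H] [BorelSpace H] {f : Em n → (H →L[ℝ] EuclideanSpace ℝ ι)}
  (hf : Frf F D X δ ε (zS e D L P c v₀) f)

include hL hc hN hf

/-- **the value of the closed family over the sphere of the line** (corner loops) -/
theorem box_zS (hn : 2 ≤ n) (bH : Basis (Fin (2 * n + 1)) ℝ H) {N : ℕ}
    (b : Basis (Fin N) ℝ (Em n × (H × (H × H)))) :
    |JJ b (fun z => (T2n (fun q : GY e D × ℝ => cl F q.1 q.2) (lf_cl F hD hB hdiam).smooth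
      (FE.FF F hD hB hdiam hl hJ hρ a)).val
        (Gz F hD hB hdiam hl h (zS e D L P c v₀) f) z)| = 3 * FE.kap n a ^ 4 := by
  rw [box_Gc hl hJ hρ a h hN (map_zS F P hc v₀) hf (K1 := Metric.closedBall (0 : Em n) 1)
    (isCompact_closedBall _ _) (vo := nz (qS e D L) (se P c (qS e D L)) v₀)
    (fun x hx => zS_out hJ hL P v₀ (by
      rw [mem_closedBall_zero_iff, not_le] at hx
      exact hx.le)) hn (bE n).toBasis bH b,
    JJ_zS F hD hB hdiam hl hJ hρ a hL P hc v₀]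
  ring

/-- **the value of the closed family over the sphere of the line** (polygons) -/
theorem box_zS_pl (hn : 2 ≤ n) (hFn : FE.FF F hD hB hdiam hl hJ hρ a ^ (2 + 1) = 0)
    (bH : Basis (Fin (2 * n + 1)) ℝ H) {N : ℕ}
    (b : Basis (Fin N) ℝ (Em n × (H × (H × H)))) :
    |JJ b (fun z => (T2n (fun q : GY e D × ℝ => S3B1.pl (WD3.geoM F hB) (S3B1.v8 F q.1) q.2)
      (S3B1.lht_cl F hD hB hdiam).right.smooth
      (FE.FF F hD hB hdiam hl hJ hρ a)).val
        (Gz F hD hB hdiam hl h (zS e D L P c v₀) f) z)| = 3 * FE.kap n a ^ 4 := by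
  rw [box_pl hl hJ hρ a h hN (map_zS F P hc v₀) hf (K1 := Metric.closedBall (0 : Em n) 1)
    (isCompact_closedBall _ _) (vo := nz (qS e D L) (se P c (qS e D L)) v₀)
    (fun x hx => zS_out hJ hL P v₀ (by
      rw [mem_closedBall_zero_iff, not_le] at hx
      exact hx.le)) hn hFn (bE n).toBasis bH b,
    JJ_zS F hD hB hdiam hl hJ hρ a hL P hc v₀]
  ring

end

end Vale.Agent.P231.S3B
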