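import Vale.Agent.P231.S3B.Fin
import Vale.Agent.P231.S3B1.T2c
import Vale.Agent.P231.SV.Val

/-!
# P231, stage 3, block B: the value of `t₂` on the corner loops, in the coordinates of the
negative spaces
-/

set_option maxSynthPendingDepth 3
set_option linter.unusedSectionVars false
set_option linter.unusedVariables false

open Bundle Manifold Set Filter Module MeasureTheory
open scoped ContDiff Manifold Topology ENNReal

namespace Vale.Agent.P231.S3B

noncomputable section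

open Vale.Agent.P234 Vale.Agent.P231 Vale.Agent.P231.Fm Vale.Agent.P231.W Vale.Agent.P231.WR
open Vale.Agent.P231.TW (JJ JJ_congr JJ_zero)
open Vale.Agent.P231.S3B1 (GY dGY cl lf_cl sph odd' Gc at_sph at_odd' bar_sph bar_odd' foot_odd'
  sph_far)
open Vale.Agent.P231.S3L Vale.Agent.P231.S3B4 Vale.Agent.P231.S2N

variable {E : Type*} [NormedAddCommGroup E] [NormedSpace ℝ E]
  {M : Type*} [MetricSpace M] [ChartedSpace E M]
  [RiemannianBundle (fun x : M => TangentSpace 𝓘(ℝ, E) x)]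
  {e : ∀ x : M, TangentSpace 𝓘(ℝ, E) x → M}
  [FiniteDimensional ℝ E] [IsManifold 𝓘(ℝ, E) ∞ M]
  [IsContMDiffRiemannianBundle 𝓘(ℝ, E) ∞ E (fun x : M => TangentSpace 𝓘(ℝ, E) x)]
  [CompactSpace M] [ConnectedSpace M] [IsRiemannianManifold 𝓘(ℝ, E) M] {D : ℝ}

variable {Z H : Type} [NormedAddCommGroup Z] [NormedSpace ℝ Z] [FiniteDimensional ℝ Z]
  [NormedAddCommGroup H] [NormedSpace ℝ H] [FiniteDimensional ℝ H]
  {ι : Type} [Fintype ι] [DecidableEq ι] {X δ : ι → UT E M → E} {ε : ℝ}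

/-- isometric frames of the negative spaces along a plot -/
structure Frf (F : Facts e) (D : ℝ) (X δ : ι → UT E M → E) (ε : ℝ) (v : Z → UT E M)
    (f : Z → (H →L[ℝ] EuclideanSpace ℝ ι)) : Prop where
  sm : ContDiff ℝ ∞ f
  pm : ∀ x y, Pm F D X δ ε (v x) (f x y) = f x y
  norm : ∀ x y, ‖f x y‖ = ‖y‖

section Parts

variable {F : Facts e} {hD : 0 < D} {hB : InjGE e D} {hdiam : ∀ p q : M, dist p q ≤ D} {l : ℕ}
  (hP : ∀ x y : M, dist x y = D → finrank ℝ (H775.Pl e D x y) = l + 1)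
  (h : S2N.Fam F hD hB hdiam l X δ ε) {v : Z → UT E M} (hv : (Dif.lin Z).Map (dUT E M) v)
  {f : Z → (H →L[ℝ] EuclideanSpace ℝ ι)} (hf : Frf F D X δ ε v f)

include hf in
theorem Frf.far (x : Z) {y : H} (hy : y ∉ Metric.closedBall (0 : H) 1) :
    2 / 3 ≤ ‖Pm F D X δ ε (v x) (f x y)‖ ^ 2 := by
  rw [hf.pm, hf.norm]
  rw [mem_closedBall_zero_iff, not_le] at hy
  nlinarith

include hf in
theorem Frf.sm2 {V : Type} [NormedAddCommGroup V] [NormedSpace ℝ V] [FiniteDimensional ℝ V]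
    {u : V → Z × H} {x : V} (hu : Sm u x) : Sm (fun s => f (u s).1 (u s).2) x := by
  have h1 : ContDiff ℝ ∞ fun z : Z × H => f z.1 z.2 :=
    (hf.sm.comp contDiff_fst).clm_apply contDiff_snd
  exact Sm.comp (f := fun z : Z × H => f z.1 z.2) (g := u) (Sm.of_contDiff h1 _) hu

include hv hf in
/-- **the even spheres** -/
theorem pv_sph : Pv e D v (fun z => sph hP h (v z.1) (f z.1 z.2)) (Metric.closedBall (0 : H) 1)
    where
  map {V _ _ _ u x} hu := by
    have hu' : Sm u x := hu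
    exact at_sph hP h (u := fun s => v (u s).1) (hv hu'.fst) (hf.sm2 hu')
  ft z := rfl
  br z := bar_sph hP h _ _
  out x y hy y' hy' := by
    change sph hP h (v x) (f x y) = sph hP h (v x) (f x y')
    rw [sph_far hP h (hf.far x hy), sph_far hP h (hf.far x hy')]

include hv hf in
/-- **the odd spheres** -/
theorem pv_odd : Pv e D v (fun z => odd' hP h (v z.1) (f z.1 z.2)) (Metric.closedBall (0 : H) 1)
    where
  map {V _ _ _ u x} hu := by
    have hu' : Sm u x := hu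
    exact at_odd' hP h (u := fun s => v (u s).1) (hv hu'.fst) (hf.sm2 hu')
  ft z := foot_odd' hP h _ _
  br z := bar_odd' hP h _ _
  out x y hy y' hy' := by
    change odd' hP h (v x) (f x y) = odd' hP h (v x) (f x y')
    have k : ∀ {y : H}, y ∉ Metric.closedBall (0 : H) 1 →
        sph hP h (phi F (v x, D)) (f x y) = ng (phi F (v x, D)) := fun {y} hy => by
      refine sph_far hP h ?_
      rw [Fam.Pm_phi F hD hB hdiam]
      exact hf.far x hy
    rw [odd', odd', k hy, k hy']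

end Parts

section Main

variable (F : Facts e) (hD : 0 < D) (hB : InjGE e D) (hdiam : ∀ p q : M, dist p q ≤ D) {n : ℕ}
  (hl : ∀ x y : M, dist x y = D → finrank ℝ (H775.Pl e D x y) = 2 * n + 2)
  {p : M} {Pi : TangentSpace 𝓘(ℝ, E) p → TangentSpace 𝓘(ℝ, E) p →L[ℝ] TangentSpace 𝓘(ℝ, E) p}
  {o : TangentSpace 𝓘(ℝ, E) p → Fm.Lam (TangentSpace 𝓘(ℝ, E) p)}
  {ρ : TangentSpace 𝓘(ℝ, E) p → ℝ} {r₀ : ℝ}
  (hJ : FE.LineP e D p n Pi o) (hρ : WE.Rho e D p ρ r₀) (a : ℝ)
  (h : S2N.Fam F hD hB hdiam (2 * n + 1) X δ ε) (hN : 2 ≤ finrank ℝ E)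

variable [MeasurableSpace Z] [BorelSpace Z] [MeasurableSpace H] [BorelSpace H]

/-- the quadruples over a box -/
abbrev Gz (h : S2N.Fam F hD hB hdiam (2 * n + 1) X δ ε) (v : Z → UT E M)
    (f : Z → (H →L[ℝ] EuclideanSpace ℝ ι)) (z : Z × (H × (H × H))) : GY e D :=
  S3B1.Gc (l := 2 * n + 1) hl h (v z.1, (f z.1 z.2.1, f z.1 z.2.2.1, f z.1 z.2.2.2))

/-- the three families of unit vectors over a box -/
def W3 (h : S2N.Fam F hD hB hdiam (2 * n + 1) X δ ε) (v : Z → UT E M)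
    (f : Z → (H →L[ℝ] EuclideanSpace ℝ ι)) : Fin 3 → Z × H → UT E M :=
  ![fun z => odd' (l := 2 * n + 1) hl h (v z.1) (f z.1 z.2),
    fun z => sph (l := 2 * n + 1) hl h (v z.1) (f z.1 z.2),
    fun z => odd' (l := 2 * n + 1) hl h (v z.1) (f z.1 z.2)]

variable {F hD hB hdiam} {v : Z → UT E M} (hv : (Dif.lin Z).Map (dUT E M) v)
  {f : Z → (H →L[ℝ] EuclideanSpace ℝ ι)} (hf : Frf F D X δ ε v f)

include hv hf in
theorem pv_W3 (i : Fin 3) : Pv e D v (W3 F hD hB hdiam hl h v f i)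
    (Metric.closedBall (0 : H) 1) := by
  fin_cases i
  · exact pv_odd hl h hv hf
  · exact pv_sph hl h hv hf
  · exact pv_odd hl h hv hf

theorem Gz_succ (i : Fin 3) (z : Z × (H × (H × H))) :
    (Gz F hD hB hdiam hl h v f z).u i.succ = W3 F hD hB hdiam hl h v f i (pj i z) := by
  fin_cases i <;> rfl

include hv hf in
theorem map_Gz : (Dif.lin (Z × (H × (H × H)))).Map (dGY e D) (Gz F hD hB hdiam hl h v f) :=
  map_of_parts (fun _ => rfl) (Gz_succ hl h) hv (pv_W3 hl h hv hf)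

variable {K1 : Set Z} (hK1 : IsCompact K1) {vo : UT E M} (hvo : ∀ x ∉ K1, v x = vo)

include hv hf hK1 hvo in
/-- **the box** -/
theorem bx_Gz (hZ : finrank ℝ Z = 2 * n + 2) (hH : finrank ℝ H = 2 * n + 1) :
    Bx (dGY e D) (Gz F hD hB hdiam hl h v f) (K1 ×ˢ (Metric.closedBall (0 : H) 1 ×ˢ
      (Metric.closedBall (0 : H) 1 ×ˢ Metric.closedBall (0 : H) 1))) (6 * n + 6) :=
  bx_gen F hD hB hdiam hl (pv_W3 hl h hv hf) (map_Gz hl h hv hf) (fun _ => rfl) (Gz_succ hl h)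
    (isCompact_closedBall _ _) hK1 hvo hZ hH

include hN hv hf hK1 hvo in
/-- **the value of `t₂` on the corner loops in the coordinates of the negative spaces** -/
theorem box_Gc (hn : 2 ≤ n) (bX : Basis (Fin (2 * n + 2)) ℝ Z)
    (bH : Basis (Fin (2 * n + 1)) ℝ H) {N : ℕ} (b : Basis (Fin N) ℝ (Z × (H × (H × H)))) :
    |JJ b (fun z => (T2n (fun q : GY e D × ℝ => cl F q.1 q.2) (lf_cl F hD hB hdiam).smooth
      (FE.FF F hD hB hdiam hl hJ hρ a)).val (Gz F hD hB hdiam hl h v f) z)| =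
      3 * FE.kap n a ^ 3 *
        |JJ bX (fun x => (FE.FF F hD hB hdiam hl hJ hρ a).val (fun x => foot (v x)) x)| := by
  have hi : ∀ x, Function.Injective (f x) := fun x => by
    rw [injective_iff_map_eq_zero]
    intro y hy
    have h1 := hf.norm x y
    rw [hy, norm_zero] at h1
    exact norm_eq_zero.1 h1.symm
  have ho := SV.abs_JJ_odd hl h hJ hρ a hN (by omega : 1 ≤ n) bH (v 0) (hi 0) (hf.pm 0)
  have he := SV.abs_JJ_sph hl h hJ hρ a hN (by omega : 1 ≤ n) bH (v 0) (hi 0) (hf.pm 0)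
  refine box_cl F hD hB hdiam hl hJ hρ a hn hv (W := W3 F hD hB hdiam hl h v f)
    (K' := Metric.closedBall (0 : H) 1) (isCompact_closedBall _ _) (pv_W3 hl h hv hf)
    (G := Gz F hD hB hdiam hl h v f) (fun z => rfl) (Gz_succ hl h) hK1 hvo bX bH b (x₀ := 0) ?_
  intro i
  fin_cases i
  · exact ho
  · exact he
  · exact ho

include hN hv hf hK1 hvo in
/-- **the value of `t₂` on the polygons with eight vertices** -/
theorem box_pl (hn : 2 ≤ n) (hFn : FE.FF F hD hB hdiam hl hJ hρ a ^ (2 + 1) = 0)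
    (bX : Basis (Fin (2 * n + 2)) ℝ Z)
    (bH : Basis (Fin (2 * n + 1)) ℝ H) {N : ℕ} (b : Basis (Fin N) ℝ (Z × (H × (H × H)))) :
    |JJ b (fun z => (T2n (fun q : GY e D × ℝ => S3B1.pl (WD3.geoM F hB) (S3B1.v8 F q.1) q.2)
      (S3B1.lht_cl F hD hB hdiam).right.smooth
      (FE.FF F hD hB hdiam hl hJ hρ a)).val (Gz F hD hB hdiam hl h v f) z)| =
      3 * FE.kap n a ^ 3 *
        |JJ bX (fun x => (FE.FF F hD hB hdiam hl hJ hρ a).val (fun x => foot (v x)) x)| := by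
  rw [← box_Gc hl hJ hρ a h hN hv hf hK1 hvo hn bX bH b]
  have hZ : finrank ℝ Z = 2 * n + 2 := finrank_eq_card_basis bX |>.trans (Fintype.card_fin _)
  have hH : finrank ℝ H = 2 * n + 1 := finrank_eq_card_basis bH |>.trans (Fintype.card_fin _)
  have hNN : N = 2 * n + 1 + (2 * n + 1) + (2 * n + 1) + (2 * n + 2) := by
    have h1 := finrank_eq_card_basis b
    rw [finrank_prod, finrank_prod, finrank_prod, hZ, hH, Fintype.card_fin] at h1
    omega
  have hbx := bx_Gz hl h hv hf hK1 hvo hZ hH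
  obtain ⟨w, hw⟩ := S3B1.cl_pl F hD hB hdiam (Gz F hD hB hdiam hl h v f 0)
    (FE.FF_d F hD hB hdiam hl hJ hρ a) (FE.FF_sg F hD hB hdiam hl hJ hρ a) hFn
  have h1 := hbx.II_d b (by omega) w
  rw [← hw, map_sub, sub_eq_zero, Bx.II_apply, Bx.II_apply] at h1
  rw [h1]

end Main

end

end Vale.Agent.P231.S3B
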