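import Vale.Agent.P231.H584.Mod

/-!
# P231, stage 3, block B: the form `t₂` of a nonequivariant family of loops

For a family of loops `C : Y × ℝ → M` (period `T`) and the form `G` on `Y × ℝ` pulled back from `M`,
the pull-back of `t₂` to `Y` is, up to exact forms and a term with `(at_ 0 G) ^ 2`, the product of
`x' = KT T G` and of the iterated integral `- KT T (K G ^ 2) - KT T (K G) G₀`, `K = Pm G`.
-/

set_option linter.unusedSectionVars false
set_option linter.unusedVariables false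

open MeasureTheory Set Module Filter Topology
open scoped ContDiff

namespace Vale.Agent.P231.S3B

open Fm W H584

section Alg

variable {A : Type*} [Ring A]

theorem mul_center (z : A) (s : Subring.center A) : z * (s : A) = s • z := by
  rw [Subring.smul_def, smul_eq_mul]
  exact (Subring.mem_center_iff.1 s.2 z)

theorem center_mul (z : A) (s : Subring.center A) : (s : A) * z = s • z := rfl

/-- the comparison of two gauges -/
theorem alg_gauge {a b c : A} (L m n : A) (ha : a ∈ Subring.center A) (hb : b ∈ Subring.center A)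
    (hc : c ∈ Subring.center A) :
    (L + m + n) * (b ^ 2 + a * b + a ^ 2) - L * (c ^ 2 + a * c + a ^ 2) =
      m * (b ^ 2 + c * b + c ^ 2) + n * (b ^ 2 + a * b + a ^ 2) +
        ((a - c) * m - L * (c - b)) * (a + b + c) := by
  lift a to Subring.center A using ha
  lift b to Subring.center A using hb
  lift c to Subring.center A using hc
  have e1 : (b : A) ^ 2 + a * b + (a : A) ^ 2 = ((b ^ 2 + a * b + a ^ 2 : Subring.center A) : A) := by
    push_cast
    rfl
  have e2 : (c : A) ^ 2 + a * c + (a : A) ^ 2 = ((c ^ 2 + a * c + a ^ 2 : Subring.center A) : A) := by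
    push_cast
    rfl
  have e3 : (b : A) ^ 2 + c * b + (c : A) ^ 2 = ((b ^ 2 + c * b + c ^ 2 : Subring.center A) : A) := by
    push_cast
    rfl
  have e4 : (a : A) - c = ((a - c : Subring.center A) : A) := rfl
  have e5 : (c : A) - b = ((c - b : Subring.center A) : A) := rfl
  have e6 : (a : A) + b + c = ((a + b + c : Subring.center A) : A) := rfl
  rw [e1, e2, e3, e4, e5, e6]
  simp only [mul_center, center_mul]
  module

end Alg

section Forms

variable {Y : Type*} {D : Dif Y}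

theorem even_center {w : Form D} (hw : w.sg = w) : w ∈ Subring.center (Form D) :=
  Subring.mem_center_iff.2 fun b => (Form.mul_comm_of_even hw b).symm

/-- the values of the primitive `Pm w` -/
theorem Pm_cyl_val (w : Form (D.prod (Dif.lin ℝ))) {E : Type} [NormedAddCommGroup E]
    [NormedSpace ℝ E] [FiniteDimensional ℝ E] {u : E → Y} {x : E} (h : D.At u x) (s : ℝ) :
    (Pm w).val (Form.cyl u) (x, s) =
      Fm.pull (ContinuousLinearMap.fst ℝ E ℝ) (∫ t in (0 : ℝ)..s, co w u x t) := by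
  rw [Pm, K_val' _ (Form.cyl_at h s)]
  have h1 : ∀ t : ℝ, co (Form.pull scal map_scal w) (Form.cyl u) (x, s) t =
      pullL (ContinuousLinearMap.fst ℝ E ℝ) (s • co w u x (s * t)) := fun t => by
    rw [co, Form.pull_val _ _ (Form.cyl_at (Form.cyl_at h s) t)]
    let g : (E × ℝ) × ℝ → E × ℝ := fun p => (p.1.1, p.1.2 * p.2)
    have h2 : (scal ∘ Form.cyl (Form.cyl u) : (E × ℝ) × ℝ → Y × ℝ) = Form.cyl u ∘ g := rfl
    have h3 : Sm g ((x, s), t) := Sm.of_contDiff (by fun_prop) _
    have h4 : HasFDerivAt g (((ContinuousLinearMap.fst ℝ E ℝ).comp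
        (ContinuousLinearMap.fst ℝ (E × ℝ) ℝ)).prod
        (s • ContinuousLinearMap.snd ℝ (E × ℝ) ℝ + t • ((ContinuousLinearMap.snd ℝ E ℝ).comp
        (ContinuousLinearMap.fst ℝ (E × ℝ) ℝ)))) ((x, s), t) := by
      have h5 : HasFDerivAt (fun p : (E × ℝ) × ℝ => p.1.1) ((ContinuousLinearMap.fst ℝ E ℝ).comp
        (ContinuousLinearMap.fst ℝ (E × ℝ) ℝ)) ((x, s), t) :=
        HasFDerivAt.comp ((x, s), t) (g := Prod.fst) hasFDerivAt_fst hasFDerivAt_fst
      have h6 : HasFDerivAt (fun p : (E × ℝ) × ℝ => p.1.2) ((ContinuousLinearMap.snd ℝ E ℝ).comp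
        (ContinuousLinearMap.fst ℝ (E × ℝ) ℝ)) ((x, s), t) :=
        HasFDerivAt.comp ((x, s), t) (g := Prod.snd) hasFDerivAt_snd hasFDerivAt_fst
      exact h5.prodMk (h6.mul hasFDerivAt_snd)
    rw [h2, w.nat (u := Form.cyl u) (g := g) (x := ((x, s), t)) (Form.cyl_at h _) h3, h4.fderiv]
    have h7 := at1_pull_shear (ContinuousLinearMap.fst ℝ E ℝ)
      (t • (ContinuousLinearMap.snd ℝ E ℝ)) s (((ContinuousLinearMap.fst ℝ E ℝ).comp
        (ContinuousLinearMap.fst ℝ (E × ℝ) ℝ)).prod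
        (s • ContinuousLinearMap.snd ℝ (E × ℝ) ℝ + t • ((ContinuousLinearMap.snd ℝ E ℝ).comp
        (ContinuousLinearMap.fst ℝ (E × ℝ) ℝ)))) (fun p => by
          simp [add_comm]) (w.val (Form.cyl u) (x, s * t))
    rw [map_smul]
    exact h7
  simp only [h1]
  have h4 : Continuous fun t => s • co w u x (s * t) :=
    ((continuous_co w h).comp (by fun_prop : Continuous fun t : ℝ => s * t)).const_smul s
  rw [ContinuousLinearMap.intervalIntegral_comp_comm
    (pullL (ContinuousLinearMap.fst ℝ E ℝ)) (h4.intervalIntegrable (μ := volume) 0 1),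
    intervalIntegral.integral_smul]
  change Fm.pull _ _ = Fm.pull _ _
  congr 1
  have h7 := intervalIntegral.smul_integral_comp_mul_left (f := co w u x) (a := 0) (b := 1) s
  rw [mul_zero, mul_one] at h7
  exact h7

/-- the primitive `Pm w` has no component along `∂_t` -/
theorem KT_Pm (c : ℝ) (w : Form (D.prod (Dif.lin ℝ))) : KT c (Pm w) = 0 :=
  Form.ext_val fun E _ _ _ u x h => by
    rw [KT_val _ _ h, Form.zero_val]
    have : ∀ t, co (Pm w) u x t = 0 := fun t => by
      rw [co, Pm_cyl_val w h, at1_fst]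
    simp only [this]
    exact intervalIntegral.integral_zero

/-- the coordinate function -/
noncomputable def tt : Form (D.prod (Dif.lin ℝ)) :=
  Form.fn (Prod.snd : Y × ℝ → ℝ) (Dif.map_snd (D := D) (D' := Dif.lin ℝ))

theorem tt_d : (tt (D := D)).d = dt := rfl

theorem tt_sg : (tt (D := D)).sg = tt := Form.sg_fn _ Dif.map_snd

theorem at_tt (c : ℝ) : at_ c (tt (D := D)) = c • 1 := Form.ext_val fun E _ _ _ u x h => by
  rw [at_, Form.pull_val _ _ h, tt, Form.fn_val _ Dif.map_snd (Form.map_slice c h), Form.smul_val,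
    Form.one_val h]
  exact Algebra.algebraMap_eq_smul_one c

/-- an odd form squares to zero, with a factor in between -/
theorem odd_mid {x : Form D} (hx : x.sg = -x) (w : Form D) : x * w * x = 0 := by
  have h1 : w * x = x * w.sg := by
    rw [Form.mul_of_odd hx, Form.sg_sg]
  rw [mul_assoc, h1, ← mul_assoc, odd_mul_self hx, zero_mul]

end Forms

section Main

variable {Y : Type*} {D : Dif Y} {T : ℝ} (hT : T ≠ 0) {G : Form (D.prod (Dif.lin ℝ))}
  (hGe : G.sg = G) (hGd : G.d = 0) (hper : at_ T G = at_ 0 G)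

include hGe in
theorem x_odd : (KT T G).sg = -KT T G := by rw [KT_sg, hGe]

include hGd hper in
theorem x_closed : (KT T G).d = 0 := by
  have h := KT_homotopy T G
  rw [hper, sub_self, hGd, KT_zero, zero_add] at h
  exact h.symm

/-- the form `(dt / T) x'` -/
noncomputable def dl (T : ℝ) (G : Form (D.prod (Dif.lin ℝ))) : Form (D.prod (Dif.lin ℝ)) :=
  (T⁻¹ • dt) * pr (KT T G)

/-- the second gauge -/
noncomputable def lt (T : ℝ) (G : Form (D.prod (Dif.lin ℝ))) : Form (D.prod (Dif.lin ℝ)) :=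
  Pm G - T⁻¹ • (tt * pr (KT T G))

include hGe in
theorem dl_even : (dl T G).sg = dl T G := by
  rw [dl, Form.sg_mul, Form.sg_smul, dt_sg, ← pr_sg, x_odd hGe, smul_neg, ← neg_one_smul ℝ
    (KT T G), pr_smul, neg_one_smul, neg_mul_neg]

include hGd hper in
theorem dl_d : (dl T G).d = 0 := by
  rw [dl, Form.d_mul, Form.d_smul, dt_d, smul_zero, zero_mul, ← pr_d, x_closed hGd hper, pr_zero,
    mul_zero, add_zero]

theorem dl_sq : dl T G * dl T G = 0 := by
  have h1 : (T⁻¹ • dt : Form (D.prod (Dif.lin ℝ))).sg = -(T⁻¹ • dt) := by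
    rw [Form.sg_smul, dt_sg, smul_neg]
  rw [dl, ← mul_assoc, odd_mid h1, zero_mul]

include hGe in
theorem lt_odd : (lt T G).sg = -lt T G := by
  rw [lt, Form.sg_sub, Pm_sg, hGe, Form.sg_smul, Form.sg_mul, tt_sg, ← pr_sg, x_odd hGe,
    ← neg_one_smul ℝ (KT T G), pr_smul, neg_one_smul, mul_neg, smul_neg]
  abel

include hGd hper in
theorem lt_d : (lt T G).d = G - pr (at_ 0 G) - dl T G := by
  have h1 : G.d = pr 0 := by rw [hGd, pr_zero]
  rw [lt, Form.d_sub, Pm_d h1, Form.d_smul, Form.d_mul, tt_d, ← pr_d, x_closed hGd hper, pr_zero,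
    mul_zero, add_zero, dl, smul_mul_assoc]

theorem at_smul (c r : ℝ) (a : Form (D.prod (Dif.lin ℝ))) : at_ c (r • a) = r • at_ c a :=
  map_smul (Form.pullA (fun x : Y => (x, c)) (Form.map_slice c)) r a

theorem lt_zero : at_ 0 (lt T G) = 0 := by
  rw [lt, at_sub, Pm_zero, at_smul, at_mul, at_tt, zero_smul, zero_mul, smul_zero, sub_zero]

include hT in
theorem lt_T : at_ T (lt T G) = 0 := by
  rw [lt, at_sub, Pm_at, at_smul, at_mul, at_tt, at_pr, smul_mul_assoc, one_mul, smul_smul,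
    inv_mul_cancel₀ hT, one_smul, sub_self]

theorem at_dl (c : ℝ) : at_ c (dl T G) = 0 := by
  rw [dl, at_mul, at_smul, at_dt, smul_zero, zero_mul]

/-- `hh 2` -/
theorem hh_two {R : Type*} [Semiring R] (a b : R) : hh 2 a b = b ^ 2 + a * b + a ^ 2 := by
  rw [hh, Finset.sum_range_succ, Finset.sum_range_succ, Finset.sum_range_one]
  simp

include hT in
theorem KT_dl : KT T (dl T G) = KT T G := by
  rw [dl, KT_mul_pr, KT_smul, KT_dt, smul_smul, inv_mul_cancel₀ hT, one_smul, one_mul]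

theorem Pm_neg (w : Form (D.prod (Dif.lin ℝ))) : Pm (-w) = -Pm w := by
  rw [Pm, Pm, ← K_neg]
  congr 1
  exact map_neg (Form.pullA _ map_scal) w

/-- `x' w x' = 0` -/
theorem KT_d_eq (w : Form (D.prod (Dif.lin ℝ))) :
    KT T w.d = at_ T w - at_ 0 w - (KT T w).d := by
  rw [KT_homotopy]
  abel

/-- multiplication of an exact form by a closed odd one -/
theorem odd_mul_d {x : Form D} (hx : x.sg = -x) (hxd : x.d = 0) (Z : Form D) :
    x * Z.d = (-(x * Z)).d := by
  rw [Form.d_neg, Form.d_mul, hxd, zero_mul, zero_add, hx, neg_mul, neg_neg]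

theorem closed_pow {w : Form D} (hw : w.d = 0) (n : ℕ) : (w ^ n).d = 0 := by
  induction n with
  | zero =>
    rw [pow_zero]
    have h : (1 : Form D) = (1 : Form D) ^ 1 := (one_pow 1).symm
    have := Form.d_mul (1 : Form D) 1
    have h1 : (1 : Form D).sg = 1 := by
      have h2 := Form.sg_pow (1 : Form D) 0
      simpa using h2
    rw [mul_one, mul_one, h1, one_mul] at this
    exact left_eq_add.1 this
  | succ n ih => rw [pow_succ, Form.d_mul, ih, hw, zero_mul, mul_zero, add_zero]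

theorem closed_mul {w v : Form D} (hw : w.d = 0) (hv : v.d = 0) : (w * v).d = 0 := by
  rw [Form.d_mul, hw, hv, zero_mul, mul_zero, add_zero]

theorem d_mul_right (w : Form D) {v : Form D} (hv : v.d = 0) : (w * v).d = w.d * v := by
  rw [Form.d_mul, hv, mul_zero, add_zero]

include hT hGe hGd hper in
/-- **the form `t₂` of a family of loops** -/
theorem gen {lm : Form (D.prod (Dif.lin ℝ))} (hlo : lm.sg = -lm) (hlper : at_ T lm = at_ 0 lm)
    {Xf : Form D} (hXe : Xf.sg = Xf) (hlm : lm.d = G - pr Xf - dl T G) :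
    ∃ Z m₁ : Form D, m₁.sg = m₁ ∧ m₁.d = 0 ∧
      KT T G * KT T (-(lm * hh 2 G (pr Xf + dl T G))) =
        KT T G * (-KT T (Pm G * G ^ 2) - KT T (Pm G * G) * at_ 0 G) -
          (3 : ℝ) • (KT T G * m₁ * (at_ 0 G) ^ 2) + Z.d := by
  have hxo := x_odd (T := T) hGe
  have hxd := x_closed (T := T) hGd hper
  have hxK := KT_dl hT (G := G)
  set x := KT T G with hx
  set g := at_ 0 G with hg
  have hge : g.sg = g := by rw [hg, ← at_sg, hGe]
  have hgd : g.d = 0 := by rw [hg, ← at_d, hGd, at_zero]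
  have hXd : Xf.d = 0 := by
    have h1 := congrArg (fun w => at_ 0 (Form.d w)) hlm
    simp only [Form.d_d, Form.d_sub, hGd, dl_d hGd hper, ← pr_d, at_zero, at_sub, at_pr] at h1
    simp at h1
    exact h1
  set n0 := at_ 0 lm with hn0
  have hn0d : n0.d = g - Xf := by
    rw [hn0, ← at_d, hlm, at_sub, at_sub, at_pr, at_dl, sub_zero]
  have hn0o : n0.sg = -n0 := by
    rw [hn0, ← at_sg, hlo, ← neg_one_smul ℝ lm, at_smul, neg_one_smul]
  set ν := lm - lt T G - pr n0 with hν
  have hνd : ν.d = 0 := by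
    rw [hν, Form.d_sub, Form.d_sub, hlm, lt_d hGd hper, ← pr_d, hn0d, pr_sub]
    abel
  have hν0 : at_ 0 ν = 0 := by
    rw [hν, at_sub, at_sub, lt_zero, at_pr, sub_zero, sub_self]
  have hνo : ν.sg = -ν := by
    rw [hν, Form.sg_sub, Form.sg_sub, hlo, lt_odd hGe, ← pr_sg, hn0o, ← neg_one_smul ℝ n0, pr_smul,
      neg_one_smul]
    abel
  set m := Pm ν with hm
  have hmd : m.d = ν := by
    have h1 : ν.d = pr 0 := by rw [hνd, pr_zero]
    rw [hm, Pm_d h1, hν0, pr_zero, sub_zero]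
  have hme : m.sg = m := by rw [hm, Pm_sg, hνo, Pm_neg, neg_neg]
  have hm0 : at_ 0 m = 0 := Pm_zero _
  set m₁ := at_ T m with hm1
  have hm1e : m₁.sg = m₁ := by rw [hm1, ← at_sg, hme]
  have hm1d : m₁.d = 0 := by
    rw [hm1, ← at_d, hmd, hν, at_sub, at_sub, lt_T hT, at_pr, hlper, sub_zero, sub_self]
  set b := pr Xf + dl T G with hb
  set c := pr g + dl T G with hc
  have hbe : b.sg = b := by rw [hb, Form.sg_add, ← pr_sg, hXe, dl_even hGe]
  have hce : c.sg = c := by rw [hc, Form.sg_add, ← pr_sg, hge, dl_even hGe]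
  have hbd : b.d = 0 := by rw [hb, Form.d_add, ← pr_d, hXd, pr_zero, dl_d hGd hper, add_zero]
  have hcd : c.d = 0 := by rw [hc, Form.d_add, ← pr_d, hgd, pr_zero, dl_d hGd hper, add_zero]
  -- the algebraic identity
  have key : lm * (b ^ 2 + G * b + G ^ 2) - lt T G * (c ^ 2 + G * c + G ^ 2) =
      pr n0 * (b ^ 2 + c * b + c ^ 2) + (m * (b ^ 2 + G * b + G ^ 2)).d +
        (lt T G * pr n0 * (G + b + c)).d := by
    have h1 := alg_gauge (a := G) (b := b) (c := c) (lt T G) (pr n0) ν (even_center hGe)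
      (even_center hbe) (even_center hce)
    have h2 : lt T G + pr n0 + ν = lm := by rw [hν]; abel
    have h3 : (b ^ 2 + G * b + G ^ 2).d = 0 := by
      rw [Form.d_add, Form.d_add, closed_pow hbd, closed_pow hGd, closed_mul hGd hbd, add_zero,
        add_zero]
    have h4 : (G + b + c).d = 0 := by rw [Form.d_add, Form.d_add, hGd, hbd, hcd, add_zero, add_zero]
    have h5 : G - c = (lt T G).d := by rw [lt_d hGd hper, hc]; abel
    have h6 : c - b = (pr n0).d := by rw [← pr_d, hn0d, pr_sub, hc, hb]; abel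
    have h7 : (G - c) * pr n0 - lt T G * (c - b) = (lt T G * pr n0).d := by
      rw [h5, h6, Form.d_mul, lt_odd hGe, neg_mul, ← sub_eq_add_neg]
    rw [h2, h7] at h1
    rw [h1, d_mul_right m h3, hmd, d_mul_right _ h4]
  -- first term
  have k1 : x * KT T (pr n0 * (b ^ 2 + c * b + c ^ 2)) = 0 := by
    have h1 : b ^ 2 + c * b + c ^ 2 = pr (Xf ^ 2 + g * Xf + g ^ 2) +
        pr ((3 : ℝ) • (Xf + g)) * dl T G := by
      have h2 : (dl T G) * (dl T G) = 0 := dl_sq
      have hcx : ∀ w, dl T G * w = w * dl T G := fun w =>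
        Form.mul_comm_of_even (dl_even hGe) w
      have hX : ∀ w, pr Xf * w = w * pr Xf := fun w =>
        Form.mul_comm_of_even (by rw [← pr_sg, hXe]) w
      rw [hb, hc, pr_smul, pr_add, pr_add, pr_add, pr_mul, pr_pow, pr_pow]
      have e1 : (pr Xf + dl T G) ^ 2 = pr Xf ^ 2 + (2 : ℝ) • (pr Xf * dl T G) := by
        rw [pow_two, pow_two, add_mul, mul_add, mul_add, h2, hcx (pr Xf), two_smul]
        abel
      have e2 : (pr g + dl T G) ^ 2 = pr g ^ 2 + (2 : ℝ) • (pr g * dl T G) := by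
        rw [pow_two, pow_two, add_mul, mul_add, mul_add, h2, hcx (pr g), two_smul]
        abel
      have e3 : (pr g + dl T G) * (pr Xf + dl T G) = pr g * pr Xf + (pr g * dl T G +
          pr Xf * dl T G) := by
        rw [add_mul, mul_add, mul_add, h2, hcx (pr Xf)]
        abel
      rw [e1, e2, e3, smul_mul_assoc, add_mul]
      module
    have h3 : (Xf + g).sg = Xf + g := by rw [Form.sg_add, hXe, hge]
    have h4 : KT T (b ^ 2 + c * b + c ^ 2) = ((3 : ℝ) • (Xf + g)) * x := by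
      rw [h1, KT_add, KT_pr, zero_add, KT_pr_mul, hxK, Form.sg_smul, h3]
    rw [KT_pr_mul, h4, ← mul_assoc, ← mul_assoc, mul_assoc x, odd_mid hxo]
  -- the second term
  have k2 : x * KT T (m * (b ^ 2 + G * b + G ^ 2)).d =
      (3 : ℝ) • (x * m₁ * g ^ 2) + (x * m₁ * n0 * ((2 : ℝ) • g + Xf)).d -
        x * (KT T (m * (b ^ 2 + G * b + G ^ 2))).d := by
    have h1 : at_ T (b ^ 2 + G * b + G ^ 2) = Xf ^ 2 + g * Xf + g ^ 2 := by
      rw [at_add, at_add, at_mul, at_pow, at_pow, hb, at_add, at_pr, at_dl, hper, add_zero]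
    have h2 : Xf ^ 2 + g * Xf + g ^ 2 = (3 : ℝ) • g ^ 2 - (g - Xf) * ((2 : ℝ) • g + Xf) := by
      have hgX : Xf * g = g * Xf := Form.mul_comm_of_even hXe g
      rw [sub_mul, mul_add, mul_add, mul_smul_comm, mul_smul_comm, hgX, pow_two, pow_two]
      module
    have h3 : (x * m₁ * n0 * ((2 : ℝ) • g + Xf)).d = -(x * m₁ * ((g - Xf) * ((2 : ℝ) • g + Xf))) := by
      have h4 : ((2 : ℝ) • g + Xf).d = 0 := by
        rw [Form.d_add, Form.d_smul, hgd, hXd, smul_zero, add_zero]
      rw [d_mul_right _ h4, Form.d_mul, closed_mul hxd hm1d, zero_mul, zero_add, Form.sg_mul, hxo,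
        hm1e, hn0d, neg_mul, neg_mul, neg_mul, mul_assoc (x * m₁)]
    rw [KT_d_eq, at_mul, at_mul, hm0, zero_mul, sub_zero, h1, h3, mul_sub, h2, ← mul_assoc,
      mul_sub (x * m₁), mul_smul_comm]
    abel
  -- the third term
  have k3 : x * KT T (lt T G * pr n0 * (G + b + c)).d =
      -(x * (KT T (lt T G * pr n0 * (G + b + c))).d) := by
    rw [KT_d_eq, at_mul, at_mul, at_mul, at_mul, lt_T hT, lt_zero, zero_mul, zero_mul, zero_mul,
      zero_mul, sub_zero, zero_sub, mul_neg]
  -- the main term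
  have k4 : x * KT T (lt T G * (c ^ 2 + G * c + G ^ 2)) =
      x * (KT T (Pm G * G ^ 2) + KT T (Pm G * G) * g) := by
    have h2 : (dl T G) * (dl T G) = 0 := dl_sq
    have hcx : ∀ w, dl T G * w = w * dl T G := fun w =>
      Form.mul_comm_of_even (dl_even hGe) w
    have e2 : (pr g + dl T G) ^ 2 = pr (g ^ 2) + (2 : ℝ) • (pr g * dl T G) := by
      rw [pow_two, pow_two, pr_mul, add_mul, mul_add, mul_add, h2, hcx (pr g), two_smul]
      abel
    have h5 : c ^ 2 + G * c + G ^ 2 = G ^ 2 + G * pr g + pr (g ^ 2) +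
        ((2 : ℝ) • pr g + G) * (T⁻¹ • dt) * pr x := by
      rw [hc, e2, mul_assoc ((2 : ℝ) • pr g + G)]
      change _ = _ + _ * dl T G
      rw [add_mul, mul_add, smul_mul_assoc]
      abel
    have h6 : (c ^ 2 + G * c + G ^ 2).sg = c ^ 2 + G * c + G ^ 2 := by
      rw [Form.sg_add, Form.sg_add, Form.sg_mul, Form.sg_pow, Form.sg_pow, hGe, hce]
    have h7 : T⁻¹ • (tt * pr x) * (c ^ 2 + G * c + G ^ 2) =
        T⁻¹ • (tt * (c ^ 2 + G * c + G ^ 2)) * pr x := by
      rw [smul_mul_assoc, smul_mul_assoc, mul_assoc, mul_assoc, ← Form.mul_comm_of_even h6 (pr x)]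
    rw [lt, sub_mul, h7]
    nth_rewrite 1 [h5]
    rw [mul_add, mul_add, mul_add, ← mul_assoc (Pm G), ← mul_assoc (Pm G), KT_sub, KT_add, KT_add,
      KT_add, KT_mul_pr, KT_mul_pr, KT_mul_pr, KT_mul_pr, KT_Pm, zero_mul, add_zero, mul_sub,
      mul_add, ← mul_assoc x, ← mul_assoc x, odd_mid hxo, odd_mid hxo, add_zero, sub_zero]
  refine ⟨-(x * KT T (m * (b ^ 2 + G * b + G ^ 2))) -
    x * KT T (lt T G * pr n0 * (G + b + c)) - x * m₁ * n0 * ((2 : ℝ) • g + Xf), m₁, hm1e, hm1d, ?_⟩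
  have h1 : lm * (b ^ 2 + G * b + G ^ 2) = lt T G * (c ^ 2 + G * c + G ^ 2) +
      (pr n0 * (b ^ 2 + c * b + c ^ 2) + (m * (b ^ 2 + G * b + G ^ 2)).d +
        (lt T G * pr n0 * (G + b + c)).d) := by
    rw [← key]
    abel
  rw [hh_two, KT_neg, mul_neg, h1, KT_add, KT_add, KT_add, mul_add x, mul_add x, mul_add x, k1, k2,
    k3, k4, Form.d_sub, Form.d_sub, Form.d_neg, Form.d_mul x, Form.d_mul x, hxd, zero_mul, zero_mul,
    hxo, zero_add, zero_add, neg_mul, neg_mul, mul_sub x, mul_add x, mul_neg]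
  abel

end Main

end Vale.Agent.P231.S3B
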