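import Vale.Agent.P231.S3B.FibV
import Vale.Agent.P231.S3B1.Cl
import Vale.Agent.P231.S3B1.LHt
import Vale.Agent.P231.S3B4.T2

/-!
# P231, stage 3, block B: the value of `t₂` on the corner loops, over a box
-/

set_option maxSynthPendingDepth 3
set_option linter.unusedSectionVars false
set_option linter.unusedVariables false

open Bundle Manifold Set Filter Module MeasureTheory
open scoped ContDiff Manifold Topology ENNReal

namespace Vale.Agent.P231.S3B

noncomputable section

open Vale.Agent.P234 Vale.Agent.P231 Vale.Agent.P231.Fm Vale.Agent.P231.W Vale.Agent.P231.WR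
open Vale.Agent.P231.TW (JJ JJ_congr JJ_zero)
open Vale.Agent.P231.S3B1 (GY dGY)

variable {E : Type*} [NormedAddCommGroup E] [NormedSpace ℝ E]
  {M : Type*} [MetricSpace M] [ChartedSpace E M]
  [RiemannianBundle (fun x : M => TangentSpace 𝓘(ℝ, E) x)]
  {e : ∀ x : M, TangentSpace 𝓘(ℝ, E) x → M}
  [FiniteDimensional ℝ E] [IsManifold 𝓘(ℝ, E) ∞ M]
  [IsContMDiffRiemannianBundle 𝓘(ℝ, E) ∞ E (fun x : M => TangentSpace 𝓘(ℝ, E) x)]
  [CompactSpace M] [ConnectedSpace M] [IsRiemannianManifold 𝓘(ℝ, E) M] {D : ℝ} {n : ℕ}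

variable {Z H : Type} [NormedAddCommGroup Z] [NormedSpace ℝ Z] [FiniteDimensional ℝ Z]
  [MeasurableSpace Z] [BorelSpace Z] [NormedAddCommGroup H] [NormedSpace ℝ H]
  [FiniteDimensional ℝ H] [MeasurableSpace H] [BorelSpace H]

/-- a family of unit vectors in the planes of `v`, constant along the fibres outside a compact
set -/
structure Pv (e : ∀ x : M, TangentSpace 𝓘(ℝ, E) x → M) (D : ℝ) (v : Z → UT E M)
    (W : Z × H → UT E M) (K' : Set H) : Prop where
  map : (Dif.lin (Z × H)).Map (dUT E M) W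
  ft : ∀ z, foot (W z) = foot (v z.1)
  br : ∀ z, bar e D (W z) = bar e D (v z.1)
  out : ∀ x, ∀ y ∉ K', ∀ y' ∉ K', W (x, y) = W (x, y')

variable (F : Facts e) (hD : 0 < D) (hB : InjGE e D) (hdiam : ∀ p q : M, dist p q ≤ D)
  (hP : ∀ x y : M, dist x y = D → finrank ℝ (H775.Pl e D x y) = 2 * n + 2)

section Box

variable {v : Z → UT E M} {W : Fin 3 → Z × H → UT E M} {K' : Set H}
  (hW : ∀ i, Pv e D v (W i) K') {G : Z × (H × (H × H)) → GY e D}
  (hG : (Dif.lin (Z × (H × (H × H)))).Map (dGY e D) G)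
  (e0 : ∀ z, (G z).u 0 = v z.1) (e1 : ∀ (i : Fin 3) z, (G z).u i.succ = W i (pj i z))
  (hK' : IsCompact K') {K1 : Set Z} (hK1 : IsCompact K1) {vo : UT E M} (hvo : ∀ x ∉ K1, v x = vo)

include e0 e1 in
theorem map_of_parts (hv : (Dif.lin Z).Map (dUT E M) v) (hW : ∀ i, Pv e D v (W i) K') :
    (Dif.lin (Z × (H × (H × H)))).Map (dGY e D) G := by
  intro V _ _ _ u x hu j
  have hu' : Sm u x := hu
  induction j using Fin.cases with
  | zero =>
    refine (dUT E M).congr (hv hu'.fst) (Eventually.of_forall fun y => ?_)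
    exact (e0 (u y)).symm
  | succ i =>
    have h1 : Sm (fun y => pj i (u y)) x :=
      Sm.comp (f := fun z => pj (Z := Z) (H := H) i z) (g := u)
        (Sm.of_contDiff (pj (Z := Z) (H := H) i).contDiff _) hu'
    refine (dUT E M).congr ((hW i).map h1) (Eventually.of_forall fun y => ?_)
    exact (e1 i (u y)).symm

include hW hG e0 e1 hK' in
theorem thn_far' (k : Fin 3) {z₀ : Z × (H × (H × H))} (hz : (pj k z₀).2 ∉ K') :
    Thn (dGY e D) G (finrank ℝ Z + (finrank ℝ H + finrank ℝ H)) z₀ := by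
  refine ⟨Z × (H × H), inferInstance, inferInstance, inferInstance,
    fun w => G (ins k (pj k z₀).2 w), fg k, ?_, ?_, ?_, ?_⟩
  · rw [finrank_prod, finrank_prod]
  · exact Sm.of_contDiff (fg (Z := Z) (H := H) k).contDiff _
  · exact hG (u := ins k (pj k z₀).2) (Sm.of_contDiff (contDiff_ins k _) _)
  · have h1 : ∀ᶠ z : Z × (H × (H × H)) in 𝓝 z₀, (pj k z).2 ∉ K' := by
      have h2 : Continuous fun z : Z × (H × (H × H)) => (pj k z).2 :=
        continuous_snd.comp (pj (Z := Z) (H := H) k).continuous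
      exact h2.continuousAt.eventually (hK'.isClosed.isOpen_compl.mem_nhds hz)
    filter_upwards [h1] with z hz'
    refine GY_ext fun j => ?_
    change (G z).u j = (G (ins k (pj k z₀).2 (fg k z))).u j
    induction j using Fin.cases with
    | zero => rw [e0, e0, ins_fst]
    | succ i =>
      rw [e1, e1]
      by_cases hik : i = k
      · subst hik
        rw [pj_ins_self]
        have h3 : pj i z = (z.1, (pj i z).2) := Prod.ext (pj_fst i z) rfl
        rw [h3]
        exact (hW i).out z.1 _ hz' _ hz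
      · rw [pj_ins k i hik]

include F hD hB hdiam hP hW hG e0 e1 hK' hK1 hvo in
/-- **the box** -/
theorem bx_gen (hZ : finrank ℝ Z = 2 * n + 2) (hH : finrank ℝ H = 2 * n + 1) :
    Bx (dGY e D) G (K1 ×ˢ (K' ×ˢ (K' ×ˢ K'))) (6 * n + 6) where
  map := hG
  cpt := hK1.prod (hK'.prod (hK'.prod hK'))
  thin z hz := by
    by_cases h1 : z.1 ∈ K1
    · have h2 : ∃ k : Fin 3, (pj k z).2 ∉ K' := by
        by_contra hcon
        push Not at hcon
        exact hz ⟨h1, hcon 0, hcon 1, hcon 2⟩
      obtain ⟨k, hk⟩ := h2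
      exact (thn_far' hW hG e0 e1 hK' k hk).mono (by omega)
    · refine (thn_fix F hD hB hdiam hP (v := vo) (at_glob hG z) ?_).mono (by omega)
      have h2 : ∀ᶠ z' : Z × (H × (H × H)) in 𝓝 z, z'.1 ∉ K1 :=
        continuous_fst.continuousAt.eventually (hK1.isClosed.isOpen_compl.mem_nhds h1)
      filter_upwards [h2] with z' hz'
      rw [e0, hvo _ hz']

end Box

section Const

variable {v : Z → UT E M} {W : Z × H → UT E M} {K' : Set H} (hW : Pv e D v W K')

include hW in
/-- the value on a fibre -/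
theorem val_fibre' (w : Form (dUT E M)) (x : Z) (y : H) :
    Fm.pull (ContinuousLinearMap.inr ℝ Z H) (w.val W (x, y)) = w.val (fun y => W (x, y)) y := by
  have h0 : (dUT E M).At W (x, y) := at_glob hW.map (x, y)
  have hg : Sm (fun y : H => (x, y)) y :=
    Sm.of_contDiff (contDiff_const.prodMk contDiff_id) _
  have h1 := w.nat (g := fun y : H => (x, y)) (x := y) h0 hg
  have h2 : fderiv ℝ (fun y : H => (x, y)) y = ContinuousLinearMap.inr ℝ Z H :=
    (hasFDerivAt_prodMk_right x y).fderiv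
  rw [h2] at h1
  exact h1.symm

include hW in
/-- positive degree forms vanish on the fibres where the family is constant -/
theorem val_fibre_out (hK' : IsCompact K') {w : Form (dUT E M)} {k : ℕ}
    (hk : Form.IsDeg (k + 1) w) (x : Z) {y : H} (hy : y ∉ K') :
    Fm.pull (ContinuousLinearMap.inr ℝ Z H) (w.val W (x, y)) = 0 := by
  rw [val_fibre' hW]
  have hg : Sm (fun y : H => (x, y)) y :=
    Sm.of_contDiff (contDiff_const.prodMk contDiff_id) _
  refine TH.val_const hk (hW.map (u := fun y : H => (x, y)) hg) (c := W (x, y)) ?_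
  have h2 : ∀ᶠ y' : H in 𝓝 y, y' ∉ K' := hK'.isClosed.isOpen_compl.mem_nhds hy
  filter_upwards [h2] with y' hy'
  exact hW.out x y' hy' y hy

include F hW in
/-- **the fibre integral is constant** -/
theorem fib_const' {G : Form (dM E M)} (hG : G.d = 0) (hk : Form.IsDeg (2 * n + 1 + 1) G)
    (hK' : IsCompact K') {yo : H} (hyo : yo ∉ K') (bH : Basis (Fin (2 * n + 1)) ℝ H) (x x' : Z) :
    JJ bH (fun y => Fm.pull (ContinuousLinearMap.inr ℝ Z H) ((WR.B0 F D G).val W (x, y))) =
      JJ bH (fun y => Fm.pull (ContinuousLinearMap.inr ℝ Z H)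
        ((WR.B0 F D G).val W (x', y))) := by
  set B := WR.B0 F D G with hBdef
  have hBk : Form.IsDeg (2 * n + 1) B := Co.isDeg_KT D (hk.pull _ _)
  have hU1 : (Dif.lin (Z × H)).Map (dUT E M) W := hW.map
  -- the constant section
  let U2 : Z × H → UT E M := fun z => W (z.1, yo)
  have hU2 : (Dif.lin (Z × H)).Map (dUT E M) U2 := by
    intro V _ _ _ u x hu
    have hu' : Sm u x := hu
    exact hW.map (u := fun y => ((u y).1, yo)) (hu'.fst.prodMk (Sm.of_contDiff contDiff_const _))
  have hb : ∀ z, bar e D (W z) = bar e D (U2 z) := fun z => by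
    change _ = bar e D (W (z.1, yo))
    rw [hW.br, hW.br]
  have hf : ∀ z, foot (W z) = foot (U2 z) := fun z => by
    change _ = foot (W (z.1, yo))
    rw [hW.ft, hW.ft]
  have hBd := B0_d' F (D := D) hG
  have hpr : ∀ (U : Z × H → UT E M) z, WA.prt (2 * n + 1) (B.val U z) = B.val U z :=
    fun U z => by
      have h1 := congrArg (fun w : Form (dUT E M) => w.val U z) hBk.part_eq
      exact h1
  have hs : ∀ {U : Z × H → UT E M}, (Dif.lin (Z × H)).Map (dUT E M) U →
      ContDiff ℝ ∞ (B.val U) := fun {U} hU =>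
    contDiff_iff_contDiffAt.2 fun z => B.smooth (at_glob hU z)
  let w : Z × H → Lam (Z × H) := fun z => B.val W z - B.val U2 z
  have hsec : ∀ (x : Z) (y : H), Fm.pull (ContinuousLinearMap.inr ℝ Z H) (B.val U2 (x, y)) =
      0 := by
    intro x y
    have hg : Sm (fun y : H => (x, y)) y :=
      Sm.of_contDiff (contDiff_const.prodMk contDiff_id) _
    have h1 := B.nat (g := fun y : H => (x, y)) (x := y) (at_glob hU2 (x, y)) hg
    have h2 : fderiv ℝ (fun y : H => (x, y)) y = ContinuousLinearMap.inr ℝ Z H :=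
      (hasFDerivAt_prodMk_right x y).fderiv
    rw [h2] at h1
    rw [← h1]
    refine TH.val_const hBk ?_ (c := W (x, yo)) (Eventually.of_forall fun _ => rfl)
    exact hU2 (u := fun y : H => (x, y)) hg
  have key := JJ_const bH (w := w) ((hs hU1).sub (hs hU2)) ?_ ?_ hK' ?_ x x'
  · have h1 : ∀ x, JJ bH (fun y => Fm.pull (ContinuousLinearMap.inr ℝ Z H) (w (x, y))) =
        JJ bH (fun y => Fm.pull (ContinuousLinearMap.inr ℝ Z H)
          (B.val W (x, y))) := fun x => JJ_congr bH fun y => by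
      simp only [w]
      rw [map_sub, hsec, sub_zero]
    rw [h1, h1] at key
    exact key
  · intro z
    have h1 : WA.prt (2 * n + 1) (w z) = WA.prt (2 * n + 1) (B.val W z) -
        WA.prt (2 * n + 1) (B.val U2 z) := map_sub _ _ _
    rw [h1, hpr, hpr]
  · intro z
    have h1 : extd w z = extd (B.val W) z - extd (B.val U2) z :=
      extd_sub ((hs hU1).differentiable (by simp) z) ((hs hU2).differentiable (by simp) z)
    rw [h1, ← Form.d_val B (at_glob hU1 z), ← Form.d_val B (at_glob hU2 z), hBd, Form.sub_val,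
      Form.sub_val, Form.pull_val _ _ (at_glob hU1 z), Form.pull_val _ _ (at_glob hU1 z),
      Form.pull_val _ _ (at_glob hU2 z), Form.pull_val _ _ (at_glob hU2 z)]
    have h2 : bar e D ∘ W = bar e D ∘ U2 := funext hb
    have h3 : foot ∘ W = foot ∘ U2 := funext hf
    rw [h2, h3, sub_self]
  · intro x y hy
    have h1 : W =ᶠ[𝓝 (x, y)] U2 := by
      have h2 : ∀ᶠ z : Z × H in 𝓝 (x, y), z.2 ∉ K' :=
        (continuous_snd (X := Z) (Y := H)).continuousAt.eventually
          (hK'.isClosed.isOpen_compl.mem_nhds (show ((x, y) : Z × H).2 ∈ K'ᶜ from hy))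
      filter_upwards [h2] with z hz
      exact hW.out z.1 z.2 hz yo hyo
    simp only [w]
    rw [B.congr (at_glob hU1 (x, y)) h1, sub_self]

end Const

end

end Vale.Agent.P231.S3B
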