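import Vale.Agent.P231.S2I3.Gs
import Vale.Agent.P231.S3B1.Gf
import Vale.Agent.P231.S3B.Box2
import Vale.Agent.P231.TH.S8
import Vale.Agent.P231.WR.Pencil

/-!
# P231, stage 3, block B: the closed family over the base: quadruples of unit vectors of one plane

`uv f ξ` is the unit vector with the coordinates `ξ` in the plane of the frame `f`, `Gp T th` is the
plot `(x, y₁, y₂, y₃) ↦ (v, T(x) th₁(y₁), T(x) th₂(y₂), T(x) th₃(y₃))` of the space `GY`.
-/

set_option maxSynthPendingDepth 3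
set_option linter.unusedSectionVars false
set_option linter.unusedVariables false

open Bundle Manifold Set Filter Module MeasureTheory
open scoped ContDiff Manifold Topology

namespace Vale.Agent.P231.S3B

noncomputable section

open Vale.Agent.P234 Vale.Agent.P231 Vale.Agent.P231.Fm Vale.Agent.P231.W Vale.Agent.P231.WR
open Vale.Agent.P231.CoC (Em bE)
open Vale.Agent.P231.S3B1 (GY dGY)

variable {E : Type*} [NormedAddCommGroup E] [NormedSpace ℝ E]
  {M : Type*} [MetricSpace M] [ChartedSpace E M]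
  [RiemannianBundle (fun x : M => TangentSpace 𝓘(ℝ, E) x)]
  {e : ∀ x : M, TangentSpace 𝓘(ℝ, E) x → M}
  [FiniteDimensional ℝ E] [IsManifold 𝓘(ℝ, E) ∞ M]
  [IsContMDiffRiemannianBundle 𝓘(ℝ, E) ∞ E (fun x : M => TangentSpace 𝓘(ℝ, E) x)]
  [CompactSpace M] [ConnectedSpace M] [IsRiemannianManifold 𝓘(ℝ, E) M] {D : ℝ} {n : ℕ}

/-- the frames of the planes -/
abbrev Frm (e : ∀ x : M, TangentSpace 𝓘(ℝ, E) x → M) (D : ℝ) (n : ℕ) : Type _ :=
  S2I3.Fr e D (2 * n + 1)

/-- the orthonormal basis of the plane of a frame -/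
def fb (f : Frm e D n) (i : Fin (2 * n + 2)) : UT E M :=
  Fin.cases (motive := fun _ => UT E M) f.v (fun j : Fin (2 * n + 1) => f.w j) i

theorem fb_zero (f : Frm e D n) : fb f 0 = f.v := rfl

theorem fb_succ (f : Frm e D n) (j : Fin (2 * n + 1)) : fb f j.succ = f.w j := rfl

theorem foot_fb (f : Frm e D n) (i : Fin (2 * n + 2)) : foot (fb f i) = foot f.v := by
  induction i using Fin.cases with
  | zero => rfl
  | succ j => exact f.foot_w j

theorem map_fb (i : Fin (2 * n + 2)) :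
    (S2I3.dFr e D (2 * n + 1)).Map (dUT E M) fun f => fb f i := by
  induction i using Fin.cases with
  | zero => exact S2I3.map_Frv
  | succ j => exact S2I3.map_Frw j

/-- the vectors of the basis, in the tangent space -/
def ev (f : Frm e D n) (i : Fin (2 * n + 2)) : TangentSpace 𝓘(ℝ, E) (foot f.v) :=
  vec' (E := E) (fb f i)

theorem fr_ip' (f : Frm e D n) (i j : Fin (2 * n + 1)) :
    ip (foot f.v) (vec' (f.w i)) (vec' (f.w j)) = if i = j then 1 else 0 := by
  by_cases hij : i = j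
  · subst hij
    rw [if_pos rfl]
    exact (f.isLF.isL i).ip_self
  · rw [if_neg hij]
    exact f.isLF.orth i j hij

theorem ev_ip (f : Frm e D n) (i j : Fin (2 * n + 2)) :
    inner ℝ (ev f i) (ev f j) = if i = j then (1 : ℝ) else 0 := by
  change ip (foot f.v) (vec' (fb f i)) (vec' (fb f j)) = _
  induction i using Fin.cases with
  | zero =>
    induction j using Fin.cases with
    | zero =>
      rw [if_pos rfl]
      exact ip_vec' f.v
    | succ j =>
      rw [if_neg (Fin.succ_ne_zero j).symm]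
      exact (f.isLF.isL j).orth
  | succ i =>
    induction j using Fin.cases with
    | zero =>
      rw [if_neg (Fin.succ_ne_zero i), ip_comm']
      exact (f.isLF.isL i).orth
    | succ j =>
      simp only [Fin.succ_inj]
      exact fr_ip' f i j

theorem ev_on (f : Frm e D n) : Orthonormal ℝ (ev f) :=
  orthonormal_iff_ite.2 fun i j => by
    rw [ev_ip]

theorem ev_mem (f : Frm e D n) (i : Fin (2 * n + 2)) :
    ev f i ∈ H775.Pl e D (bar e D f.v) (foot f.v) := by
  induction i using Fin.cases with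
  | zero => exact self_mem_Pl D f.v
  | succ j => exact (mem_Lf.1 (f.isLF.isL j).mem_Lf).1

/-- the isometry on the plane of a frame -/
def li (f : Frm e D n) : Em n →ₗᵢ[ℝ] TangentSpace 𝓘(ℝ, E) (foot f.v) where
  toFun ξ := ∑ i, ξ i • ev f i
  map_add' v w := by
    rw [← Finset.sum_add_distrib]
    refine Finset.sum_congr rfl fun i _ => ?_
    rw [PiLp.add_apply, add_smul]
  map_smul' c w := by
    rw [RingHom.id_apply, Finset.smul_sum]
    refine Finset.sum_congr rfl fun i _ => ?_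
    rw [PiLp.smul_apply, smul_eq_mul, mul_smul]
  norm_map' ξ := by
    have h1 : ‖∑ i, ξ i • ev f i‖ ^ 2 = ‖ξ‖ ^ 2 := by
      rw [← real_inner_self_eq_norm_sq, (ev_on f).inner_sum, EuclideanSpace.norm_sq_eq]
      refine Finset.sum_congr rfl fun i _ => ?_
      rw [Real.norm_eq_abs, sq_abs, sq]
      rfl
    exact (sq_eq_sq₀ (norm_nonneg _) (norm_nonneg _)).1 h1

theorem li_apply (f : Frm e D n) (ξ : Em n) : li f ξ = ∑ i, ξ i • ev f i := rfl

theorem li_mem (f : Frm e D n) (ξ : Em n) : li f ξ ∈ H775.Pl e D (bar e D f.v) (foot f.v) := by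
  rw [li_apply]
  exact Submodule.sum_mem _ fun i _ => Submodule.smul_mem _ _ (ev_mem f i)

/-- the unit vector with given coordinates -/
def uv (f : Frm e D n) (ξ : Em n) (h : ‖ξ‖ = 1) : UT E M :=
  W.mk (foot f.v) (li f ξ) ((li f).norm_map ξ ▸ h : ‖li f ξ‖ = 1)

@[simp] theorem foot_uv (f : Frm e D n) (ξ : Em n) (h : ‖ξ‖ = 1) : foot (uv f ξ h) = foot f.v := rfl

theorem vec'_uv (f : Frm e D n) (ξ : Em n) (h : ‖ξ‖ = 1) : (vec' (uv f ξ h) : E) = li f ξ := rfl

theorem vec'_uv' (f : Frm e D n) (ξ : Em n) (h : ‖ξ‖ = 1) :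
    (vec' (uv f ξ h) : E) = ∑ i, ξ i • (vec' (fb f i) : E) := rfl

section Bar

variable (F : Facts e) (hD : 0 < D) (hB : InjGE e D) (hdiam : ∀ p q : M, dist p q ≤ D)
include F hD hB hdiam

theorem bar_uv (f : Frm e D n) (ξ : Em n) (h : ‖ξ‖ = 1) : bar e D (uv f ξ h) = bar e D f.v :=
  ((H775.mem_Lk_iff F hD hB hdiam (dist_bar' F hD hB f.v)).2
    ⟨((li f).norm_map ξ).trans h, li_mem f ξ⟩).2

end Bar

theorem uv_congr {f : Frm e D n} {ξ ξ' : Em n} {h : ‖ξ‖ = 1} {h' : ‖ξ'‖ = 1} (hξ : ξ = ξ') :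
    uv f ξ h = uv f ξ' h' := by
  subst hξ
  rfl

/-- families of unit vectors are smooth -/
theorem at_uv {V : Type} [NormedAddCommGroup V] [NormedSpace ℝ V] [FiniteDimensional ℝ V]
    {T : V → Frm e D n} {ξ : V → Em n} {x : V} (hT : (S2I3.dFr e D (2 * n + 1)).At T x)
    (hξ : Sm ξ x) (h : ∀ y, ‖ξ y‖ = 1) : (dUT E M).At (fun y => uv (T y) (ξ y) (h y)) x := by
  refine at_sum (u := fun y => (T y).v) (W := fun i y => fb (T y) i) (c := fun i y => ξ y i)
    (S2I3.map_Frv hT) (fun i => map_fb i hT)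
    (fun i => Eventually.of_forall fun y => foot_fb (T y) i) (fun i => ?_)
    (Eventually.of_forall fun y => ⟨rfl, vec'_uv' _ _ _⟩)
  filter_upwards [hξ] with y hy
  exact (EuclideanSpace.proj (𝕜 := ℝ) i).contDiff.contDiffAt.comp y hy

section Plot

variable {Z H : Type} [NormedAddCommGroup Z] [NormedSpace ℝ Z] [FiniteDimensional ℝ Z]
  [MeasurableSpace Z] [BorelSpace Z] [NormedAddCommGroup H] [NormedSpace ℝ H]
  [FiniteDimensional ℝ H] [MeasurableSpace H] [BorelSpace H]

/-- the plot of the vector `i` -/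
def Wv (T : Z → Frm e D n) {th : H → Em n} (hth : ∀ y, ‖th y‖ = 1) (p : Z × H) : UT E M :=
  uv (T p.1) (th p.2) (hth p.2)

theorem map_Wv {T : Z → Frm e D n} (hT : (Dif.lin Z).Map (S2I3.dFr e D (2 * n + 1)) T)
    {th : H → Em n} (hth : ∀ y, ‖th y‖ = 1) (hs : ContDiff ℝ ∞ th) :
    (Dif.lin (Z × H)).Map (dUT E M) (Wv T hth) := by
  intro V _ _ _ u x hu
  have hu' : Sm u x := hu
  refine at_uv (T := fun y => T (u y).1) (ξ := fun y => th (u y).2) (hT hu'.fst) ?_
    fun y => hth (u y).2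
  exact Sm.comp (f := th) (g := fun y => (u y).2) (Sm.of_contDiff hs _) hu'.snd

variable (F : Facts e) (hD : 0 < D) (hB : InjGE e D) (hdiam : ∀ p q : M, dist p q ≤ D)

/-- **the plot of `GY`** -/
def Gp (T : Z → Frm e D n) {th : Fin 3 → H → Em n} (hth : ∀ i y, ‖th i y‖ = 1)
    (z : Z × (H × (H × H))) : GY e D where
  u j := Fin.cases (motive := fun _ => UT E M) (T z.1).v (fun i => Wv T (hth i) (pj i z)) j
  ft j := by
    induction j using Fin.cases with
    | zero => rfl
    | succ i =>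
      change foot (Wv T (hth i) (pj i z)) = foot (T z.1).v
      rw [Wv, foot_uv]
      fin_cases i <;> rfl
  br j := by
    induction j using Fin.cases with
    | zero => rfl
    | succ i =>
      change bar e D (Wv T (hth i) (pj i z)) = bar e D (T z.1).v
      rw [Wv, bar_uv F hD hB hdiam]
      fin_cases i <;> rfl

theorem Gp_zero (T : Z → Frm e D n) {th : Fin 3 → H → Em n} (hth : ∀ i y, ‖th i y‖ = 1)
    (z : Z × (H × (H × H))) : (Gp F hD hB hdiam T hth z).u 0 = (T z.1).v := rfl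

theorem Gp_succ (T : Z → Frm e D n) {th : Fin 3 → H → Em n} (hth : ∀ i y, ‖th i y‖ = 1)
    (i : Fin 3) (z : Z × (H × (H × H))) :
    (Gp F hD hB hdiam T hth z).u i.succ = Wv T (hth i) (pj i z) := rfl

theorem map_Gp {T : Z → Frm e D n} (hT : (Dif.lin Z).Map (S2I3.dFr e D (2 * n + 1)) T)
    {th : Fin 3 → H → Em n} (hth : ∀ i y, ‖th i y‖ = 1) (hs : ∀ i, ContDiff ℝ ∞ (th i)) :
    (Dif.lin (Z × (H × (H × H)))).Map (dGY e D) (Gp F hD hB hdiam T hth) := by
  intro V _ _ _ u x hu j
  have hu' : Sm u x := hu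
  induction j using Fin.cases with
  | zero => exact S2I3.map_Frv (hT hu'.fst)
  | succ i =>
    refine map_Wv hT (hth i) (hs i) (u := fun y => pj i (u y)) ?_
    exact Sm.comp (f := fun z => pj (Z := Z) (H := H) i z) (g := u)
      (Sm.of_contDiff (pj (Z := Z) (H := H) i).contDiff _) hu'

end Plot

end

end Vale.Agent.P231.S3B
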