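import Vale.Agent.P231.S3B5.End
import Vale.Agent.P231.S3B4.Fa

/-!
# P231, stage 3, block B: the constant linear change of the closed family, and the naturality of
the relative numbers in the target
-/

set_option maxSynthPendingDepth 3
set_option linter.unusedSectionVars false
set_option linter.unusedVariables false

open Set Filter Module MeasureTheory
open scoped ContDiff Topology ENNReal

namespace Vale.Agent.P231.S3B

open Vale.Agent.P231.S3B5 (lamV contDiff_lamV)
open Vale.Agent.P231.S3B3 (kap' kap'_pos)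
open Vale.Agent.P231.Fm Vale.Agent.P231.S3L Vale.Agent.P231.S3B4 Vale.Agent.P231.H584

noncomputable section

section Lin

variable {A B : Type*} [NormedAddCommGroup A] [NormedSpace ℝ A] [NormedAddCommGroup B]
  [NormedSpace ℝ B]

/-- the linear change commutes with linear maps -/
theorem lamV_map (D : ℝ) (f : A →L[ℝ] B) (w : A × (A × A)) :
    lamV D (f w.1, (f w.2.1, f w.2.2)) =
      (f (lamV D w).1, (f (lamV D w).2.1, f (lamV D w).2.2)) := by
  simp only [lamV, map_add, map_sub, map_neg, map_smul]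

/-- **the linear change of parameters** is invertible -/
def lamE {D : ℝ} (hD : 0 < D) : (A × (A × A)) ≃L[ℝ] (A × (A × A)) where
  toFun := lamV D
  invFun c := ((4 * D)⁻¹ • (c.1 + c.2.1 + c.2.2),
    (-((2 * kap' D)⁻¹ • c.2.1), (2 * kap' D)⁻¹ • (c.2.2 - c.1)))
  map_add' w w' := by
    refine Prod.ext ?_ (Prod.ext ?_ ?_) <;>
      simp only [lamV, Prod.fst_add, Prod.snd_add] <;> module
  map_smul' c w := by
    refine Prod.ext ?_ (Prod.ext ?_ ?_) <;>
      simp only [lamV, Prod.smul_fst, Prod.smul_snd, RingHom.id_apply] <;> module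
  left_inv w := by
    have hk := (kap'_pos hD).ne'
    have hD' := hD.ne'
    refine Prod.ext ?_ (Prod.ext ?_ ?_)
    · simp only [lamV]
      have h1 : (2 * D) • w.1 + kap' D • (w.2.1 - w.2.2) + -((2 * kap' D) • w.2.1) +
          ((2 * D) • w.1 + kap' D • (w.2.1 + w.2.2)) = (4 * D) • w.1 := by module
      rw [h1, smul_smul, inv_mul_cancel₀ (by positivity), one_smul]
    · simp only [lamV]
      rw [smul_neg, neg_neg, smul_smul, inv_mul_cancel₀ (by positivity), one_smul]
    · simp only [lamV]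
      have h1 : (2 * D) • w.1 + kap' D • (w.2.1 + w.2.2) -
          ((2 * D) • w.1 + kap' D • (w.2.1 - w.2.2)) = (2 * kap' D) • w.2.2 := by module
      rw [h1, smul_smul, inv_mul_cancel₀ (by positivity), one_smul]
  right_inv c := by
    have hk := (kap'_pos hD).ne'
    have hD' := hD.ne'
    refine Prod.ext ?_ (Prod.ext ?_ ?_)
    · simp only [lamV]
      match_scalars <;> field_simp <;> ring
    · simp only [lamV]
      match_scalars
      field_simp
    · simp only [lamV]
      match_scalars <;> field_simp <;> ring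
  continuous_toFun := (contDiff_lamV D).continuous
  continuous_invFun := by fun_prop

@[simp] theorem lamE_apply {D : ℝ} (hD : 0 < D) (w : A × (A × A)) : lamE hD w = lamV D w := rfl

/-- the linear change with parameters -/
def linZ {D : ℝ} (hD : 0 < D) (Z : Type*) [NormedAddCommGroup Z] [NormedSpace ℝ Z] :
    (Z × (A × (A × A))) ≃L[ℝ] (Z × (A × (A × A))) :=
  (ContinuousLinearEquiv.refl ℝ Z).prodCongr (lamE hD)

@[simp] theorem linZ_apply {D : ℝ} (hD : 0 < D) {Z : Type*} [NormedAddCommGroup Z]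
    [NormedSpace ℝ Z] (z : Z × (A × (A × A))) : linZ hD Z z = (z.1, lamV D z.2) := rfl

end Lin

/-! ### naturality in the target -/

section Push

variable {V : Type} [NormedAddCommGroup V] [NormedSpace ℝ V] [FiniteDimensional ℝ V]
  [MeasurableSpace V] [BorelSpace V] {Y Y' : Type*} {DY : Dif Y} {DY' : Dif Y'} {OY : Set Y}
  {OY' : Set Y'} {U O B : Set V} {χ : V → ℝ} {M : Type*} [MetricSpace M] {DM : Dif M}
  {S : NNReal} {W : ℝ≥0∞} {δ : ℝ} {J : ℕ}

/-- the image of a plot -/
theorem Plt.push {κ : V → Y'} (h : Plt U O B DY' OY' κ) {f : Y' → Y} (hf : DY'.Map DY f)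
    (hm : ∀ y ∈ OY', f y ∈ OY) : Plt U O B DY OY fun x => f (κ x) where
  opU := h.opU
  opO := h.opO
  sub := h.sub
  clB := h.clB
  map := fun {E} _ _ _ {u x} hu => hf (h.map hu)
  mem x hx := hm _ (h.mem x hx)
  thin := h.thin.comp_left hf

/-- **naturality of the relative numbers in the target** -/
theorem Pn_push {N : ℕ} (b : Basis (Fin N) ℝ V) {κ : V → Y'} (h : Plt U O B DY' OY' κ)
    {f : Y' → Y} (hf : DY'.Map DY f) (hm : ∀ y ∈ OY', f y ∈ OY) {c : Y → ℝ → M}
    {a : Y → Fin J → ℂ} {c' : Y' → ℝ → M} {a' : Y' → Fin J → ℂ}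
    (h1 : FA DY DM S W δ J OY c a) (h1' : FA DY' DM S W δ J OY' c' a')
    (hc : ∀ y, Pt DY' y → ∀ t, c' y t = c (f y) t)
    (ha : ∀ y ∈ OY', Pt DY' y → a' y = a (f y)) (z0 : LL DM S W δ J) (F : Form DM)
    (ℓ : Form (dLL DM S W δ J)) :
    Pn b χ h (h1'.T F) (h1'.L z0 ℓ) = Pn b χ (Plt.push h hf hm) (h1.T F) (h1.L z0 ℓ) := by
  have e1 : h1'.T F = Form.pull f hf (h1.T F) := by
    have k1 : DY'.Map (dLp DM) (fun y => c (f y)) := fun {E} _ _ _ {u x} hu => h1.map (hf hu)
    have k2 : Form.pull f hf (h1.T F) = Form.pull _ k1 (t2P F) :=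
      pull_pull hf h1.map k1 (fun _ => rfl) _
    rw [k2, pull_t2P, h1'.T_eq]
    exact T2n_congr _ _ (fun y hy t => hc y hy t) F
  have e2 : h1'.L z0 ℓ = Form.pull f (hf.on_on hm) (h1.L z0 ℓ) := by
    refine Form.ext_val fun E _ _ _ u x hu => ?_
    have hu1 : (DY.on OY).At (fun y => f (u y)) x := hf.on_on hm hu
    have e3 := Form.pull_val (h1.map_tl z0) ℓ hu1
    rw [FA.L, Form.pull_val _ _ hu, Form.pull_val _ _ hu]
    have e4 : (h1.L z0 ℓ).val (f ∘ u) x = ℓ.val (tl z0 c a ∘ fun y => f (u y)) x := e3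
    rw [e4]
    refine ℓ.congr (h1'.map_tl z0 hu) ?_
    filter_upwards [hu.2, DY'.open' hu.1] with y hO hy
    have hp : Pt DY' (u y) := pt_of_at hy
    have hp' : Pt DY (f (u y)) := Pt.map hf hp
    refine LL.ext' (fun t => ?_) fun j => ?_
    · have k1 := congrFun (h1'.tl_c z0 hO hp) t
      have k2 := congrFun (h1.tl_c z0 (hm _ hO) hp') t
      exact (k1.trans (hc _ hp t)).trans k2.symm
    · have k1 := congrFun (h1'.tl_a z0 hO hp) j
      have k2 := congrFun (h1.tl_a z0 (hm _ hO) hp') j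
      exact (k1.trans (congrFun (ha _ hO hp) j)).trans k2.symm
  rw [Pn, Pn, e1, e2]
  congr 1
  · exact pull_pull h.map hf (Plt.push h hf hm).map (fun _ => rfl) _
  · exact pull_pull h.mapO (hf.on_on hm) (Plt.push h hf hm).mapO (fun _ => rfl) _

end Push

end

end Vale.Agent.P231.S3B
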