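import Vale.Agent.P231.TW.Hlp

/-!
# P231, stage 3, block B: the integral of a product of three fibre forms and a base form
-/

set_option linter.unusedSectionVars false
set_option linter.unusedVariables false

open Module MeasureTheory Set Metric Filter
open scoped ContDiff Topology

namespace Vale.Agent.P231.S3B

open Fm WA TW
open Vale.Agent.P231.Q (pf ps slice_mul_pf aug_slice pull_inr_pf pull_inr_ps)

theorem cont_pull {E F A : Type*} [NormedAddCommGroup E] [NormedSpace ℝ E] [FiniteDimensional ℝ E]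
    [NormedAddCommGroup F] [NormedSpace ℝ F] [FiniteDimensional ℝ F] [TopologicalSpace A]
    (L : E →L[ℝ] F) {f : A → Lam F} (hf : Continuous f) : Continuous fun a => Fm.pull L (f a) :=
  (pullL L).continuous.comp hf

section Two

variable {X : Type*} [NormedAddCommGroup X] [NormedSpace ℝ X] [FiniteDimensional ℝ X]
  [MeasurableSpace X] [BorelSpace X]
variable {Y : Type*} [NormedAddCommGroup Y] [NormedSpace ℝ Y] [FiniteDimensional ℝ Y]
  [MeasurableSpace Y] [BorelSpace Y]

theorem evalForm_mul_pf {k l : ℕ} (bX : Basis (Fin k) ℝ X) (bY : Basis (Fin l) ℝ Y)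
    (a : Lam (X × Y)) {P : Lam X} (hP : prt k P = P) :
    evalForm (a * pf P) (pB bX bY) =
      evalForm (Fm.pull (ContinuousLinearMap.inr ℝ X Y) a) bY * evalForm P bX := by
  have hk : finrank ℝ X = k := finrank_eq_card_basis bX |>.trans (Fintype.card_fin k)
  rw [evalForm_pB, slice_mul_pf, mul_top_prt hk hP, aug_slice, Q.evalForm_smul]

/-- a top form of the base times any form -/
theorem JJ_top {k l : ℕ} (bX : Basis (Fin k) ℝ X) (bY : Basis (Fin l) ℝ Y)
    {a : X × Y → Lam (X × Y)} {P : X → Lam X} (hP : ∀ x, prt k (P x) = P x)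
    (ha : Continuous a) (hPc : Continuous P)
    {K : Set X} {K' : Set Y} (hK : IsCompact K) (hK' : IsCompact K')
    (h0 : ∀ x ∉ K, P x = 0)
    (h1 : ∀ x, ∀ y ∉ K', Fm.pull (ContinuousLinearMap.inr ℝ X Y) (a (x, y)) = 0) :
    JJ (pB bX bY) (fun z => a z * pf (P z.1)) =
      ∫ x, JJ bY (fun y => Fm.pull (ContinuousLinearMap.inr ℝ X Y) (a (x, y))) *
        evalForm (P x) bX ∂bX.addHaar := by
  have e1 : ∀ z : X × Y, evalForm (a z * pf (P z.1)) (pB bX bY) =
      evalForm (Fm.pull (ContinuousLinearMap.inr ℝ X Y) (a z)) bY * evalForm (P z.1) bX :=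
    fun z => evalForm_mul_pf bX bY _ (hP z.1)
  have hc : Continuous fun z : X × Y => evalForm (a z * pf (P z.1)) (pB bX bY) := by
    simp only [e1]
    exact ((evalL bY).continuous.comp ((pullL (ContinuousLinearMap.inr ℝ X Y)).continuous.comp
      ha)).mul ((evalL bX).continuous.comp (hPc.comp continuous_fst))
  rw [JJ_pB bX bY hc (hK.prod hK') ?_]
  · refine integral_congr_ae (Eventually.of_forall fun x => ?_)
    change _ = (∫ y, _ ∂_) * _
    rw [← integral_mul_const]
    refine integral_congr_ae (Eventually.of_forall fun y => ?_)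
    change evalForm (slice bY (a (x, y) * pf (P x))) bX = _
    rw [← evalForm_pB, e1]
  · intro z hz
    rw [e1]
    by_cases hx : z.1 ∈ K
    · have hy : z.2 ∉ K' := fun h => hz ⟨hx, h⟩
      have h2 := h1 z.1 z.2 hy
      rw [Prod.mk.eta] at h2
      rw [h2, Q.evalForm_zero, zero_mul]
    · rw [h0 _ hx, Q.evalForm_zero, mul_zero]

/-- the product of two top forms -/
theorem JJ_prod {k l : ℕ} (bX : Basis (Fin k) ℝ X) (bY : Basis (Fin l) ℝ Y)
    {a : Y → Lam Y} {P : X → Lam X} (hP : ∀ x, prt k (P x) = P x)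
    (ha : Continuous a) (hPc : Continuous P)
    {K : Set X} {K' : Set Y} (hK : IsCompact K) (hK' : IsCompact K')
    (h0 : ∀ x ∉ K, P x = 0) (h1 : ∀ y ∉ K', a y = 0) :
    JJ (pB bX bY) (fun z => ps (a z.2) * pf (P z.1)) = JJ bY a * JJ bX P := by
  have hps : Continuous fun z : X × Y => ps (E := X) (a z.2) :=
    (pullL (ContinuousLinearMap.snd ℝ X Y)).continuous.comp (ha.comp continuous_snd)
  rw [JJ_top bX bY hP hps hPc hK hK' h0 (fun x y hy => by
    rw [pull_inr_ps, h1 y hy])]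
  simp only [pull_inr_ps]
  exact integral_const_mul _ _

end Two

section Three

variable {X : Type*} [NormedAddCommGroup X] [NormedSpace ℝ X] [FiniteDimensional ℝ X]
  [MeasurableSpace X] [BorelSpace X]
variable {H : Type*} [NormedAddCommGroup H] [NormedSpace ℝ H] [FiniteDimensional ℝ H]
  [MeasurableSpace H] [BorelSpace H]

/-- forget two of the three fibre variables -/
def p1 : X × (H × (H × H)) →L[ℝ] X × H :=
  (ContinuousLinearMap.fst ℝ X (H × (H × H))).prod
    ((ContinuousLinearMap.fst ℝ H (H × H)).comp (ContinuousLinearMap.snd ℝ X (H × (H × H))))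

/-- forget two of the three fibre variables -/
def p2 : X × (H × (H × H)) →L[ℝ] X × H :=
  (ContinuousLinearMap.fst ℝ X (H × (H × H))).prod
    (((ContinuousLinearMap.fst ℝ H H).comp (ContinuousLinearMap.snd ℝ H (H × H))).comp
      (ContinuousLinearMap.snd ℝ X (H × (H × H))))

/-- forget two of the three fibre variables -/
def p3 : X × (H × (H × H)) →L[ℝ] X × H :=
  (ContinuousLinearMap.fst ℝ X (H × (H × H))).prod
    (((ContinuousLinearMap.snd ℝ H H).comp (ContinuousLinearMap.snd ℝ H (H × H))).comp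
      (ContinuousLinearMap.snd ℝ X (H × (H × H))))

@[simp] theorem p1_apply (z : X × (H × (H × H))) : p1 z = (z.1, z.2.1) := rfl
@[simp] theorem p2_apply (z : X × (H × (H × H))) : p2 z = (z.1, z.2.2.1) := rfl
@[simp] theorem p3_apply (z : X × (H × (H × H))) : p3 z = (z.1, z.2.2.2) := rfl

theorem inr_p1 (w : Lam (X × H)) :
    Fm.pull (ContinuousLinearMap.inr ℝ X (H × (H × H))) (Fm.pull p1 w) =
      pf (Fm.pull (ContinuousLinearMap.inr ℝ X H) w) := by
  rw [← pull_comp_apply, pf, ← pull_comp_apply]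
  congr 1

theorem inr_p2 (w : Lam (X × H)) :
    Fm.pull (ContinuousLinearMap.inr ℝ X (H × (H × H))) (Fm.pull p2 w) =
      ps (pf (Fm.pull (ContinuousLinearMap.inr ℝ X H) w)) := by
  rw [← pull_comp_apply, pf, ps, ← pull_comp_apply, ← pull_comp_apply]
  congr 1

theorem inr_p3 (w : Lam (X × H)) :
    Fm.pull (ContinuousLinearMap.inr ℝ X (H × (H × H))) (Fm.pull p3 w) =
      ps (ps (Fm.pull (ContinuousLinearMap.inr ℝ X H) w)) := by
  rw [← pull_comp_apply, ps, ps, ← pull_comp_apply, ← pull_comp_apply]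
  congr 1

theorem inv_of_prt {l : ℕ} (hl : Odd l) {w : Lam H} (hw : prt l w = w) : Fm.inv w = -w := by
  rw [← hw, inv_prt, hl.neg_one_pow, neg_one_smul]

theorem prt_inr {l : ℕ} {w : Lam (X × H)} (hw : prt l w = w) :
    prt l (Fm.pull (ContinuousLinearMap.inr ℝ X H) w) =
      Fm.pull (ContinuousLinearMap.inr ℝ X H) w := by
  rw [prt_pull, hw]

theorem three_alg (w0 : Lam H) {w1 w2 : Lam H} (h1 : Fm.inv w1 = -w1) (h2 : Fm.inv w2 = -w2) :
    pf (F := H × H) w0 * ps (E := H) (pf (F := H) w1) * ps (E := H) (ps (E := H) w2) =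
      ps (-(ps w2 * pf w1)) * pf w0 := by
  have o1 : Fm.inv (pf (F := H) w1) = -pf w1 := by rw [pf, ← pull_inv, h1, map_neg]
  have o2 : Fm.inv (ps (E := H) w2) = -ps w2 := by rw [ps, ← pull_inv, h2, map_neg]
  have h3 : pf (F := H) w1 * ps w2 = -(ps w2 * pf w1) := by
    rw [mul_of_odd o1, o2, neg_mul]
  have h4 : ps (E := H) (pf (F := H) w1) * ps (E := H) (ps (E := H) w2) =
      ps (-(ps w2 * pf w1)) := by
    rw [← h3]
    exact (map_mul (Fm.pull (ContinuousLinearMap.snd ℝ H (H × H))) _ _).symm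
  have h5 : Fm.inv (ps (E := H) (-(ps w2 * pf w1))) = ps (-(ps w2 * pf w1)) := by
    rw [ps, ← pull_inv, map_neg, map_mul, o1, o2, neg_mul_neg]
  rw [mul_assoc, h4]
  exact (mul_comm_of_even h5 _).symm

/-- **the integral of a product of three odd fibre forms and a top form of the base** -/
theorem JJ_three {k l : ℕ} (hl : Odd l) (bX : Basis (Fin k) ℝ X) (bH : Basis (Fin l) ℝ H)
    {β : Fin 3 → X × H → Lam (X × H)} {P : X → Lam X} (hP : ∀ x, prt k (P x) = P x)
    (hβ : ∀ i, Continuous (β i)) (hPc : Continuous P) (hβk : ∀ i z, prt l (β i z) = β i z)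
    {K : Set X} {K' : Set H} (hK : IsCompact K) (hK' : IsCompact K')
    (h0 : ∀ x ∉ K, P x = 0)
    (h1 : ∀ i x, ∀ y ∉ K', Fm.pull (ContinuousLinearMap.inr ℝ X H) (β i (x, y)) = 0)
    {c : Fin 3 → ℝ}
    (hc : ∀ i x, JJ bH (fun y => Fm.pull (ContinuousLinearMap.inr ℝ X H) (β i (x, y))) = c i) :
    JJ (pB bX (pB bH (pB bH bH))) (fun z => Fm.pull p1 (β 0 (p1 z)) * Fm.pull p2 (β 1 (p2 z)) *
      Fm.pull p3 (β 2 (p3 z)) * pf (P z.1)) = -(c 0 * c 1 * c 2) * JJ bX P := by
  have hcont : Continuous fun z : X × (H × (H × H)) => Fm.pull p1 (β 0 (p1 z)) *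
      Fm.pull p2 (β 1 (p2 z)) * Fm.pull p3 (β 2 (p3 z)) := by
    have e1 : Continuous fun z : X × (H × (H × H)) => Fm.pull p1 (β 0 (p1 z)) :=
      cont_pull _ ((hβ 0).comp (p1 (X := X) (H := H)).continuous)
    have e2 : Continuous fun z : X × (H × (H × H)) => Fm.pull p2 (β 1 (p2 z)) :=
      cont_pull _ ((hβ 1).comp (p2 (X := X) (H := H)).continuous)
    have e3 : Continuous fun z : X × (H × (H × H)) => Fm.pull p3 (β 2 (p3 z)) :=
      cont_pull _ ((hβ 2).comp (p3 (X := X) (H := H)).continuous)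
    exact (e1.mul e2).mul e3
  -- the restrictions to the fibres
  set γ : Fin 3 → X → H → Lam H := fun i x y =>
    Fm.pull (ContinuousLinearMap.inr ℝ X H) (β i (x, y)) with hγ
  have hγc : ∀ i x, Continuous (γ i x) := fun i x =>
    cont_pull _ ((hβ i).comp (Continuous.prodMk_right x))
  have hγk : ∀ i x y, prt l (γ i x y) = γ i x y := fun i x y => prt_inr (hβk i (x, y))
  have hγo : ∀ i x y, Fm.inv (γ i x y) = -γ i x y := fun i x y => inv_of_prt hl (hγk i x y)
  have hr : ∀ z : X × (H × (H × H)), Fm.pull (ContinuousLinearMap.inr ℝ X (H × (H × H)))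
      (Fm.pull p1 (β 0 (p1 z)) * Fm.pull p2 (β 1 (p2 z)) * Fm.pull p3 (β 2 (p3 z))) =
      ps (-(ps (γ 2 z.1 z.2.2.2) * pf (γ 1 z.1 z.2.2.1))) * pf (γ 0 z.1 z.2.1) := by
    intro z
    rw [map_mul, map_mul, inr_p1, inr_p2, inr_p3, p1_apply, p2_apply, p3_apply]
    exact three_alg (γ 0 z.1 z.2.1) (hγo 1 z.1 z.2.2.1) (hγo 2 z.1 z.2.2.2)
  have hinner : ∀ x, JJ (pB bH (pB bH bH)) (fun y => Fm.pull
      (ContinuousLinearMap.inr ℝ X (H × (H × H)))
      (Fm.pull p1 (β 0 (p1 (x, y))) * Fm.pull p2 (β 1 (p2 (x, y))) *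
        Fm.pull p3 (β 2 (p3 (x, y))))) = -(c 0 * c 1 * c 2) := by
    intro x
    have hcp : Continuous fun y : H × H => ps (E := H) (γ 2 x y.2) * pf (F := H) (γ 1 x y.1) :=
      (cont_pull (ContinuousLinearMap.snd ℝ H H) ((hγc 2 x).comp continuous_snd)).mul
        (cont_pull (ContinuousLinearMap.fst ℝ H H) ((hγc 1 x).comp continuous_fst))
    have h2 : JJ (pB bH bH) (fun y : H × H => -(ps (γ 2 x y.2) * pf (γ 1 x y.1))) =
        -(c 1 * c 2) := by
      have h3 : JJ (pB bH bH) (fun y : H × H => -(ps (γ 2 x y.2) * pf (γ 1 x y.1))) =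
          -JJ (pB bH bH) (fun y : H × H => ps (γ 2 x y.2) * pf (γ 1 x y.1)) := by
        rw [JJ, JJ, ← integral_neg]
        refine integral_congr_ae (Eventually.of_forall fun y => ?_)
        simp only
        rw [← neg_one_smul ℝ, Q.evalForm_smul]
        ring
      rw [h3, JJ_prod bH bH (a := γ 2 x) (P := γ 1 x) (hγk 1 x) (hγc 2 x) (hγc 1 x) hK' hK'
        (fun y hy => h1 1 x y hy) (fun y hy => h1 2 x y hy)]
      have e1 := hc 1 x
      have e2 := hc 2 x
      rw [show JJ bH (γ 2 x) = c 2 from e2, show JJ bH (γ 1 x) = c 1 from e1]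
      ring
    have h4 := JJ_prod bH (pB bH bH) (a := fun y : H × H => -(ps (γ 2 x y.2) * pf (γ 1 x y.1)))
      (P := γ 0 x) (hγk 0 x) hcp.neg (hγc 0 x) hK' (hK'.prod hK') (fun y hy => h1 0 x y hy)
      (fun y hy => by
        by_cases hy1 : y.1 ∈ K'
        · have hy2 : y.2 ∉ K' := fun h => hy ⟨hy1, h⟩
          have e1 : γ 2 x y.2 = 0 := h1 2 x y.2 hy2
          simp only [e1, ps, map_zero, zero_mul, neg_zero]
        · have e1 : γ 1 x y.1 = 0 := h1 1 x y.1 hy1
          simp only [e1, pf, map_zero, mul_zero, neg_zero])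
    rw [h2, show JJ bH (γ 0 x) = c 0 from hc 0 x] at h4
    refine Eq.trans (JJ_congr _ fun y => hr (x, y)) ?_
    rw [h4]
    ring
  rw [JJ_top bX (pB bH (pB bH bH)) hP hcont hPc hK (hK'.prod (hK'.prod hK')) h0 ?_]
  · simp only [hinner]
    exact integral_const_mul _ _
  · intro x y hy
    rw [hr (x, y)]
    simp only [mem_prod, not_and_or] at hy
    rcases hy with hy | hy | hy
    · have e1 : γ 0 x y.1 = 0 := h1 0 x y.1 hy
      simp only [e1, pf, map_zero, mul_zero]
    · have e1 : γ 1 x y.2.1 = 0 := h1 1 x y.2.1 hy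
      simp only [e1, pf, ps, map_zero, mul_zero, neg_zero, zero_mul]
    · have e1 : γ 2 x y.2.2 = 0 := h1 2 x y.2.2 hy
      simp only [e1, pf, ps, map_zero, zero_mul, neg_zero]

end Three

end Vale.Agent.P231.S3B
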