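import Vale.Agent.P231.S3B.Geo

/-!
# P231, stage 3, block B: the plot of `GY` is thin outside a compact set
-/

set_option maxSynthPendingDepth 3
set_option linter.unusedSectionVars false
set_option linter.unusedVariables false

open Bundle Manifold Set Filter Module MeasureTheory
open scoped ContDiff Manifold Topology

namespace Vale.Agent.P231.S3B

noncomputable section

open Vale.Agent.P234 Vale.Agent.P231 Vale.Agent.P231.Fm Vale.Agent.P231.W Vale.Agent.P231.WR
open Vale.Agent.P231.CoC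
open Vale.Agent.P231.S3B1 (GY dGY)

variable {E : Type*} [NormedAddCommGroup E] [NormedSpace ℝ E]
  {M : Type*} [MetricSpace M] [ChartedSpace E M]
  [RiemannianBundle (fun x : M => TangentSpace 𝓘(ℝ, E) x)]
  {e : ∀ x : M, TangentSpace 𝓘(ℝ, E) x → M}
  [FiniteDimensional ℝ E] [IsManifold 𝓘(ℝ, E) ∞ M]
  [IsContMDiffRiemannianBundle 𝓘(ℝ, E) ∞ E (fun x : M => TangentSpace 𝓘(ℝ, E) x)]
  [CompactSpace M] [ConnectedSpace M] [IsRiemannianManifold 𝓘(ℝ, E) M] {D : ℝ} {n : ℕ}

theorem GY_ext {y y' : GY e D} (h : ∀ j, y.u j = y'.u j) : y = y' := by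
  obtain ⟨u, h1, h2⟩ := y
  obtain ⟨u', h1', h2'⟩ := y'
  have h3 : u = u' := funext h
  subst h3
  rfl

section Fix

variable (F : Facts e) (hD : 0 < D) (hB : InjGE e D) (hdiam : ∀ p q : M, dist p q ≤ D)
  (hP : ∀ x y : M, dist x y = D → finrank ℝ (H775.Pl e D x y) = 2 * n + 2)

/-- the vector of a unit vector with the same foot and end lies in the plane -/
theorem vp_mem {v u : UT E M} (hf : foot u = foot v) (hb : bar e D u = bar e D v) :
    vp (foot v) u ∈ H775.Pl e D (bar e D v) (foot v) := by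
  refine H775.Lk_subset_Pl D _ _ ⟨norm_vp hf, ?_⟩
  rw [← hb]
  exact (bar_vp hf).symm

section FixV

variable {v : UT E M} {r : ℕ}
  {il : EuclideanSpace ℝ (Fin r) →L[ℝ] TangentSpace 𝓘(ℝ, E) (foot v)}
  (hil : ∀ ξ, ‖il ξ‖ = ‖ξ‖)
  (hilm : ∀ ξ, il ξ ∈ H775.Pl e D (bar e D v) (foot v))

include hil in
theorem foot_mkp_il (w : EuclideanSpace ℝ (Fin r)) :
    foot (mkp (foot v) v (il (rad w))) = foot v := by
  by_cases h0 : w = 0
  · rw [mkp, dif_neg]
    intro h1
    have h2 : ‖il (rad w)‖ = 1 := h1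
    rw [hil, rad, h0, smul_zero, norm_zero] at h2
    exact zero_ne_one h2
  · exact foot_mkp (by rw [hil, FE.nm_rad h0])

include F hD hB hdiam hil hilm in
theorem bar_mkp_il (w : EuclideanSpace ℝ (Fin r)) :
    bar e D (mkp (foot v) v (il (rad w))) = bar e D v := by
  by_cases h0 : w = 0
  · rw [mkp, dif_neg]
    intro h1
    have h2 : ‖il (rad w)‖ = 1 := h1
    rw [hil, rad, h0, smul_zero, norm_zero] at h2
    exact zero_ne_one h2
  · have h1 : ‖il (rad w)‖ = 1 := by rw [hil, FE.nm_rad h0]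
    rw [bar_mkp h1]
    exact ((H775.mem_Lk_iff F hD hB hdiam (dist_bar' F hD hB v)).2 ⟨h1, hilm _⟩).2

/-- the quadruples over `v` -/
def fixv (w : Fin 3 → EuclideanSpace ℝ (Fin r)) : GY e D where
  u j := Fin.cases (motive := fun _ => UT E M) v (fun i => mkp (foot v) v (il (rad (w i)))) j
  ft j := by
    induction j using Fin.cases with
    | zero => rfl
    | succ i => exact foot_mkp_il hil (w i)
  br j := by
    induction j using Fin.cases with
    | zero => rfl
    | succ i => exact bar_mkp_il F hD hB hdiam hil hilm (w i)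

theorem fixv_succ (w : Fin 3 → EuclideanSpace ℝ (Fin r)) (i : Fin 3) :
    (fixv F hD hB hdiam hil hilm w).u i.succ = mkp (foot v) v (il (rad (w i))) := rfl

include hil in
theorem at_mkp_il {w : Fin 3 → EuclideanSpace ℝ (Fin r)} {i : Fin 3} (hw : w i ≠ 0) :
    (dUT E M).At (fun w : Fin 3 → EuclideanSpace ℝ (Fin r) =>
      mkp (foot v) v (il (rad (w i)))) w := by
  have h1 : ∀ᶠ w' : Fin 3 → EuclideanSpace ℝ (Fin r) in 𝓝 w, w' i ≠ 0 :=
    (continuous_apply i).continuousAt.eventually_ne hw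
  refine (at_mkp (f := fun w : Fin 3 → EuclideanSpace ℝ (Fin r) => il (rad (w i))) ?_ ?_).1
  · filter_upwards [h1] with w hw
    have h2 : ContDiffAt ℝ ∞ (fun w : Fin 3 → EuclideanSpace ℝ (Fin r) => w i) w :=
      contDiffAt_pi.1 contDiffAt_id i
    have h3 : ContDiffAt ℝ ∞
        ((rad : EuclideanSpace ℝ (Fin r) → EuclideanSpace ℝ (Fin r)) ∘ fun w => w i) w :=
      (FE.cd_rad hw).comp w h2
    exact il.contDiff.contDiffAt.comp w h3
  · filter_upwards [h1] with w hw
    rw [hil, FE.nm_rad hw]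

theorem at_fixv {w : Fin 3 → EuclideanSpace ℝ (Fin r)} (hw : ∀ i, w i ≠ 0)
    (hv : (dUT E M).At (fun _ : Fin 3 → EuclideanSpace ℝ (Fin r) => v) w) :
    (dGY e D).At (fixv F hD hB hdiam hil hilm) w := by
  intro j
  induction j using Fin.cases with
  | zero => exact hv
  | succ i => exact at_mkp_il hil (hw i)

end FixV

theorem sm_co {V : Type} [NormedAddCommGroup V] [NormedSpace ℝ V] [FiniteDimensional ℝ V]
    {T : Type*} [NormedAddCommGroup T] [NormedSpace ℝ T] {r : ℕ}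
    {co : T →L[ℝ] EuclideanSpace ℝ (Fin r)} {f : Fin 3 → V → T} {z : V}
    (h : ∀ i, Sm (f i) z) : Sm (fun z (i : Fin 3) => co (f i z)) z := by
  have h2 : ∀ᶠ z in 𝓝 z, ∀ i : Fin 3, ContDiffAt ℝ ∞ (f i) z := eventually_all.2 h
  filter_upwards [h2] with z hz
  exact contDiffAt_pi.2 fun i => co.contDiff.contDiffAt.comp z (hz i)

include F hD hB hdiam hP in
/-- **quadruples over a fixed vector** form a family of dimension `3 (2 n + 2)` -/
theorem thn_fix {V : Type} [NormedAddCommGroup V] [NormedSpace ℝ V] [FiniteDimensional ℝ V]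
    {G : V → GY e D} {z₀ : V} (hG : (dGY e D).At G z₀) {v : UT E M}
    (h : ∀ᶠ z in 𝓝 z₀, (G z).u 0 = v) : Thn (dGY e D) G (3 * (2 * n + 2)) z₀ := by
  set P := H775.Pl e D (bar e D v) (foot v) with hPdef
  have hr : finrank ℝ P = 2 * n + 2 := hP _ _ (dist_bar' F hD hB v)
  let b := stdOrthonormalBasis ℝ P
  let r := finrank ℝ P
  let co : TangentSpace 𝓘(ℝ, E) (foot v) →L[ℝ] EuclideanSpace ℝ (Fin r) :=
    (b.repr.toContinuousLinearEquiv : P →L[ℝ] EuclideanSpace ℝ (Fin r)) ∘L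
      P.orthogonalProjectionOnto
  let il : EuclideanSpace ℝ (Fin r) →L[ℝ] TangentSpace 𝓘(ℝ, E) (foot v) :=
    P.subtypeL ∘L (b.repr.symm.toContinuousLinearEquiv : EuclideanSpace ℝ (Fin r) →L[ℝ] P)
  have hil : ∀ ξ, ‖il ξ‖ = ‖ξ‖ := fun ξ => b.repr.symm.norm_map ξ
  have hilm : ∀ ξ, il ξ ∈ P := fun ξ => (b.repr.symm ξ).2
  have hic : ∀ a ∈ P, il (co a) = a := by
    intro a ha
    change ((b.repr.symm (b.repr (P.orthogonalProjectionOnto a)) : P) :
      TangentSpace 𝓘(ℝ, E) (foot v)) = a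
    rw [LinearIsometryEquiv.symm_apply_apply]
    exact Submodule.orthogonalProjectionOnto_mem_subspace_eq_self (K := P) ⟨a, ha⟩ ▸ rfl
  have hco : ∀ a ∈ P, ‖co a‖ = ‖a‖ := fun a ha => by rw [← hil, hic a ha]
  clear_value co il
  have hft : ∀ᶠ z in 𝓝 z₀, ∀ i : Fin 3, foot ((G z).u i.succ) = foot v := by
    filter_upwards [h] with z hz i
    rw [(G z).ft, hz]
  have hmem : ∀ᶠ z in 𝓝 z₀, ∀ i : Fin 3, vp (foot v) ((G z).u i.succ) ∈ P := by
    filter_upwards [hft, h] with z h1 h2 i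
    exact vp_mem (h1 i) (by rw [(G z).br, h2])
  have hg1 : ∀ᶠ z in 𝓝 z₀, ∀ i : Fin 3, ‖co (vp (foot v) ((G z).u i.succ))‖ = 1 := by
    filter_upwards [hft, hmem] with z h1 h2 i
    rw [hco _ (h2 i), norm_vp (h1 i)]
  have hv0 : ∀ w, (dUT E M).At (fun _ : Fin 3 → EuclideanSpace ℝ (Fin r) => v) w := fun w =>
    (dUT E M).comp (u := fun _ : V => v) (g := fun _ => z₀)
      ((dUT E M).congr (hG 0) (h.mono fun z hz => hz)) (Sm.of_contDiff contDiff_const _)
  refine ⟨Fin 3 → EuclideanSpace ℝ (Fin r), inferInstance, inferInstance, inferInstance,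
    fixv F hD hB hdiam hil hilm, fun z i => co (vp (foot v) ((G z).u i.succ)), ?_, ?_, ?_, ?_⟩
  · rw [Module.finrank_pi_fintype]
    simp only [finrank_euclideanSpace, Fintype.card_fin, Finset.sum_const, Finset.card_univ,
      smul_eq_mul]
    change 3 * finrank ℝ P ≤ _
    rw [hr]
  · exact sm_co fun i => sm_vecp ⟨hG i.succ, hft.mono fun z hz => hz i⟩
  · exact at_fixv F hD hB hdiam hil hilm (fun i => ne_zero_of_nm (hg1.self_of_nhds i)) (hv0 _)
  · filter_upwards [h, hft, hmem, hg1] with z h1 h2 h3 h4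
    refine GY_ext fun j => ?_
    induction j using Fin.cases with
    | zero => exact h1
    | succ i =>
      rw [Function.comp_apply, fixv_succ, rad, h4 i, inv_one, one_smul, hic _ (h3 i),
        mkp_vp (h2 i)]

end Fix

end

end Vale.Agent.P231.S3B
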