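import Vale.Agent.P231.S3B.Cat
import Vale.Agent.P231.S3B.Fam

/-!
# P231, stage 3, block B: the value of `t₂` on a family of loops with four pieces
-/

set_option linter.unusedSectionVars false
set_option linter.unusedVariables false

open MeasureTheory Set Module Filter Topology
open scoped ContDiff

namespace Vale.Agent.P231.S3B

open Fm W H584

variable {Y : Type*} {D : Dif Y}

theorem d_zero' : (0 : Form D).d = 0 := by
  have h := Form.d_smul (0 : ℝ) (0 : Form D)
  rwa [zero_smul, zero_smul] at h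

/-- the iterated integral of a concatenation -/
theorem iter_cat {G : Form (D.prod (Dif.lin ℝ))} (hGe : G.sg = G) (hGd : G.d = 0) {t : ℕ → ℝ}
    (ht : t 0 = 0) (k : ℕ) :
    -KT (t k) (Pm G * G ^ 2) - KT (t k) (Pm G * G) * at_ 0 G =
      ∑ i ∈ Finset.range k, (KT (t i) G * seg (t i) (t (i + 1)) G *
        (at_ 0 G + at_ (t i) G + at_ (t (i + 1)) G) - self (pc (t i) (t (i + 1)) G)) +
      (∑ i ∈ Finset.range k, KT (t i) G * Form.K (Pm (pc (t i) (t (i + 1)) G) *
        pc (t i) (t (i + 1)) G)).d := by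
  induction k with
  | zero =>
    rw [ht, KT_zero_time, KT_zero_time, Finset.sum_range_zero, Finset.sum_range_zero, neg_zero,
      zero_mul, sub_zero, zero_add, d_zero']
  | succ k ih =>
    rw [Finset.sum_range_succ, Finset.sum_range_succ, Form.d_add]
    have h1 := iter_piece hGe hGd (t k) (t (k + 1))
    have h2 : ∀ w : Form (D.prod (Dif.lin ℝ)), KT (t (k + 1)) w = KT (t k) w +
        seg (t k) (t (k + 1)) w := fun w => by
      rw [KT_eq_seg, KT_eq_seg, seg_add]
    rw [h2, h2, neg_add, add_mul]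
    have h3 : -KT (t k) (Pm G * G ^ 2) + -seg (t k) (t (k + 1)) (Pm G * G ^ 2) -
        (KT (t k) (Pm G * G) * at_ 0 G + seg (t k) (t (k + 1)) (Pm G * G) * at_ 0 G) =
        (-KT (t k) (Pm G * G ^ 2) - KT (t k) (Pm G * G) * at_ 0 G) +
        (-seg (t k) (t (k + 1)) (Pm G * G ^ 2) - seg (t k) (t (k + 1)) (Pm G * G) * at_ 0 G) := by
      abel
    rw [h3, ih, h1]
    abel

/-- **the value of the iterated integral**: an algebraic statement about four odd forms -/
theorem value_alg {V : Type*} [AddCommGroup V] [Module ℝ V] (I : Form D →ₗ[ℝ] V)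
    (hd : ∀ w : Form D, I w.d = 0) (A : Fin 3 → Subalgebra ℝ (Form D))
    (hA : ∀ k, ∀ w ∈ A k, I w = 0) {a b c e : Form D} (ha : ∀ k, a ∈ A k)
    (hb : ∀ k, k ≠ 0 → b ∈ A k) (hc : ∀ k, k ≠ 1 → c ∈ A k) (he : ∀ k, k ≠ 2 → e ∈ A k)
    {P Q : Form D} (hP : ∀ k, P ∈ A k) (hQ : ∀ k, Q ∈ A k) (hao : a.sg = -a) (hbo : b.sg = -b)
    (hco : c.sg = -c) (heo : e.sg = -e) (had : a.d = Q - P) (hbd : b.d = P - Q)
    (hcd : c.d = Q - P) (hed : e.d = P - Q) {sa sb sc se : Form D} (hsa : ∀ k, sa ∈ A k)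
    (hsb : ∀ k, k ≠ 0 → sb ∈ A k) (hsc : ∀ k, k ≠ 1 → sc ∈ A k) (hse : ∀ k, k ≠ 2 → se ∈ A k) :
    I ((a + b + c + e) * (a * b * ((2 : ℝ) • P + Q) + (a + b) * c * ((2 : ℝ) • P + Q) +
      (a + b + c) * e * ((2 : ℝ) • P + Q) - (sa + sb + sc + se))) =
      (3 : ℝ) • I (b * c * e * P) := by
  have hR : ∀ k, (2 : ℝ) • P + Q ∈ A k := fun k =>
    Subalgebra.add_mem _ (Subalgebra.smul_mem _ (hP k) _) (hQ k)
  set R := (2 : ℝ) • P + Q with hRdef
  have m2 : ∀ (k : Fin 3) {w v : Form D}, w ∈ A k → v ∈ A k → I (w * v) = 0 := fun k w v hw hv =>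
    hA k _ (Subalgebra.mul_mem _ hw hv)
  have m3 : ∀ (k : Fin 3) {w v u : Form D}, w ∈ A k → v ∈ A k → u ∈ A k → I (w * (v * u * R)) = 0 :=
    fun k w v u hw hv hu => hA k _ (Subalgebra.mul_mem _ hw (Subalgebra.mul_mem _
      (Subalgebra.mul_mem _ hv hu) (hR k)))
  have b1 := hb 1 (by decide)
  have b2 := hb 2 (by decide)
  have c0 := hc 0 (by decide)
  have c2 := hc 2 (by decide)
  have e0 := he 0 (by decide)
  have e1 := he 1 (by decide)
  have sb1 := hsb 1 (by decide)
  have sb2 := hsb 2 (by decide)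
  have sc0 := hsc 0 (by decide)
  have sc2 := hsc 2 (by decide)
  have se0 := hse 0 (by decide)
  have se1 := hse 1 (by decide)
  have hbc : b * c = -(c * b) := odd_comm hbo hco
  have hce : c * e = -(e * c) := odd_comm hco heo
  have hbe : b * e = -(e * b) := odd_comm hbo heo
  have h1 : e * (b * c * R) = b * c * e * R := by
    rw [← mul_assoc, ← mul_assoc, ← neg_neg (e * b), ← hbe, neg_mul, mul_assoc b e c,
      ← neg_neg (e * c), ← hce, mul_neg, neg_neg, ← mul_assoc]
  have h2 : c * (b * e * R) = -(b * c * e * R) := by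
    rw [← mul_assoc, ← mul_assoc, hbc, neg_mul, neg_mul, neg_neg]
  have h3 : b * (c * e * R) = b * c * e * R := by rw [← mul_assoc, ← mul_assoc]
  -- the value with `R` in terms of `P`
  have hQP : I (b * c * e * Q) = I (b * c * e * P) := by
    have h4 : (b * c * e * a).d = (P - Q) * (c * e * a) - b * ((Q - P) * (e * a)) +
        b * c * ((P - Q) * a) - b * c * e * (Q - P) := by
      simp only [Form.d_mul, hbd, hcd, hed, had, Form.sg_mul, hbo, hco, heo]
      noncomm_ring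
    have hPQ : ∀ k, P - Q ∈ A k := fun k => Subalgebra.sub_mem _ (hP k) (hQ k)
    have hQP' : ∀ k, Q - P ∈ A k := fun k => Subalgebra.sub_mem _ (hQ k) (hP k)
    have h5 : I ((P - Q) * (c * e * a)) = 0 := m2 0 (hPQ 0)
      (Subalgebra.mul_mem _ (Subalgebra.mul_mem _ c0 e0) (ha 0))
    have h6 : I (b * ((Q - P) * (e * a))) = 0 := m2 1 b1
      (Subalgebra.mul_mem _ (hQP' 1) (Subalgebra.mul_mem _ e1 (ha 1)))
    have h7 : I (b * c * ((P - Q) * a)) = 0 := m2 2 (Subalgebra.mul_mem _ b2 c2)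
      (Subalgebra.mul_mem _ (hPQ 2) (ha 2))
    have h8 := hd (b * c * e * a)
    rw [h4, map_sub, map_add, map_sub, h5, h6, h7, mul_sub, map_sub, sub_zero, add_zero,
      zero_sub, neg_eq_zero, sub_eq_zero] at h8
    exact h8
  have hfin : I (b * c * e * R) = (3 : ℝ) • I (b * c * e * P) := by
    rw [hRdef, mul_add, mul_smul_comm, map_add, map_smul, hQP]
    module
  have t1 : I ((a + b + c + e) * (a * b * R)) = 0 := by
    rw [add_mul, add_mul, add_mul, map_add, map_add, map_add, m3 1 (ha 1) (ha 1) b1,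
      m3 1 b1 (ha 1) b1, m3 2 c2 (ha 2) b2, m3 1 e1 (ha 1) b1]
    abel
  have t2 : I ((a + b + c + e) * ((a + b) * c * R)) = I (b * c * e * R) := by
    rw [add_mul a b c, add_mul (a * c), mul_add, map_add]
    have u1 : I ((a + b + c + e) * (a * c * R)) = 0 := by
      rw [add_mul, add_mul, add_mul, map_add, map_add, map_add, m3 0 (ha 0) (ha 0) c0,
        m3 2 b2 (ha 2) c2, m3 0 c0 (ha 0) c0, m3 0 e0 (ha 0) c0]
      abel
    have u2 : I ((a + b + c + e) * (b * c * R)) = I (b * c * e * R) := by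
      rw [add_mul, add_mul, add_mul, map_add, map_add, map_add, m3 2 (ha 2) b2 c2,
        m3 2 b2 b2 c2, m3 2 c2 b2 c2, h1]
      abel
    rw [u1, u2, zero_add]
  have t3 : I ((a + b + c + e) * ((a + b + c) * e * R)) = 0 := by
    rw [add_mul (a + b) c e, add_mul a b e, add_mul (a * e + b * e), add_mul (a * e), mul_add,
      mul_add, map_add, map_add]
    have u1 : I ((a + b + c + e) * (a * e * R)) = 0 := by
      rw [add_mul, add_mul, add_mul, map_add, map_add, map_add, m3 0 (ha 0) (ha 0) e0,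
        m3 1 b1 (ha 1) e1, m3 0 c0 (ha 0) e0, m3 0 e0 (ha 0) e0]
      abel
    have u2 : I ((a + b + c + e) * (b * e * R)) = -I (b * c * e * R) := by
      rw [add_mul, add_mul, add_mul, map_add, map_add, map_add, m3 1 (ha 1) b1 e1,
        m3 1 b1 b1 e1, m3 1 e1 b1 e1, h2, map_neg]
      abel
    have u3 : I ((a + b + c + e) * (c * e * R)) = I (b * c * e * R) := by
      rw [add_mul, add_mul, add_mul, map_add, map_add, map_add, m3 0 (ha 0) c0 e0,
        m3 0 c0 c0 e0, m3 0 e0 c0 e0, h3]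
      abel
    rw [u1, u2, u3]
    abel
  have t4 : I ((a + b + c + e) * (sa + sb + sc + se)) = 0 := by
    have v : ∀ {w : Form D}, (∀ k, w ∈ A k) → I (w * (sa + sb + sc + se)) = 0 := fun {w} hw => by
      rw [mul_add, mul_add, mul_add, map_add, map_add, map_add, m2 0 (hw 0) (hsa 0), m2 1 (hw 1) sb1,
        m2 0 (hw 0) sc0, m2 0 (hw 0) se0]
      abel
    rw [add_mul, add_mul, add_mul, map_add, map_add, map_add, v ha]
    have v1 : I (b * (sa + sb + sc + se)) = 0 := by
      rw [mul_add, mul_add, mul_add, map_add, map_add, map_add, m2 1 b1 (hsa 1), m2 1 b1 sb1,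
        m2 2 b2 sc2, m2 1 b1 se1]
      abel
    have v2 : I (c * (sa + sb + sc + se)) = 0 := by
      rw [mul_add, mul_add, mul_add, map_add, map_add, map_add, m2 0 c0 (hsa 0), m2 2 c2 sb2,
        m2 0 c0 sc0, m2 0 c0 se0]
      abel
    have v3 : I (e * (sa + sb + sc + se)) = 0 := by
      rw [mul_add, mul_add, mul_add, map_add, map_add, map_add, m2 0 e0 (hsa 0), m2 1 e1 sb1,
        m2 0 e0 sc0, m2 0 e0 se0]
      abel
    rw [v1, v2, v3]
    abel
  rw [mul_sub, mul_add, mul_add, map_sub, map_add, map_add, t1, t2, t3, t4, hfin, zero_add,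
    add_zero, sub_zero]

/-! ### forms on `Y × [0, 1]` -/

/-- the two forms agree over `[0, 1]` -/
def EqI (w w' : Form (D.prod (Dif.lin ℝ))) : Prop :=
  ∀ (E : Type) [NormedAddCommGroup E] [NormedSpace ℝ E] [FiniteDimensional ℝ E] (u : E → Y) (x : E),
    D.At u x → ∀ t ∈ Icc (0 : ℝ) 1, w.val (Form.cyl u) (x, t) = w'.val (Form.cyl u) (x, t)

theorem EqI.mul {w w' v v' : Form (D.prod (Dif.lin ℝ))} (h : EqI w w') (h' : EqI v v') :
    EqI (w * v) (w' * v') := fun E _ _ _ u x hu t ht => by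
  rw [Form.mul_val, Form.mul_val, h E u x hu t ht, h' E u x hu t ht]

theorem EqI.pow {w w' : Form (D.prod (Dif.lin ℝ))} (h : EqI w w') : EqI (w ^ 2) (w' ^ 2) := by
  rw [pow_two, pow_two]
  exact h.mul h

theorem EqI.int {w w' : Form (D.prod (Dif.lin ℝ))} (h : EqI w w') {E : Type}
    [NormedAddCommGroup E] [NormedSpace ℝ E] [FiniteDimensional ℝ E] {u : E → Y} {x : E}
    (hu : D.At u x) {s : ℝ} (hs : s ∈ Icc (0 : ℝ) 1) :
    (∫ t in (0 : ℝ)..s, co w u x t) = ∫ t in (0 : ℝ)..s, co w' u x t := by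
  refine intervalIntegral.integral_congr fun t ht => ?_
  rw [uIcc_of_le hs.1] at ht
  change at1 _ = at1 _
  rw [h E u x hu t ⟨ht.1, ht.2.trans hs.2⟩]

theorem EqI.Pm {w w' : Form (D.prod (Dif.lin ℝ))} (h : EqI w w') : EqI (Pm w) (Pm w') :=
  fun E _ _ _ u x hu t ht => by
    rw [Pm_cyl_val w hu, Pm_cyl_val w' hu, h.int hu ht]

theorem EqI.K {w w' : Form (D.prod (Dif.lin ℝ))} (h : EqI w w') : Form.K w = Form.K w' :=
  Form.ext_val fun E _ _ _ u x hu => by
    rw [K_val' _ hu, K_val' _ hu, h.int hu ⟨zero_le_one, le_rfl⟩]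

theorem EqI.at0 {w w' : Form (D.prod (Dif.lin ℝ))} (h : EqI w w') : at_ 0 w = at_ 0 w' :=
  Form.ext_val fun E _ _ _ u x hu => by
    rw [at_, at_, Form.slice_val _ _ hu, Form.slice_val _ _ hu, h E u x hu 0 ⟨le_rfl, zero_le_one⟩]

theorem EqI.self {w w' : Form (D.prod (Dif.lin ℝ))} (h : EqI w w') : self w = self w' := by
  rw [S3B.self, S3B.self, (h.Pm.mul h).K, (h.Pm.mul h.pow).K, h.at0]

theorem continuous_val {E : Type} [NormedAddCommGroup E] [NormedSpace ℝ E]
    [FiniteDimensional ℝ E] (w : Form (D.prod (Dif.lin ℝ))) {u : E → Y} {x : E}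
    (h : D.At u x) : Continuous fun t : ℝ => w.val (Form.cyl u) (x, t) := by
  obtain ⟨U, hU, hx, _, hw⟩ := Form.cyl_smooth w h
  exact hw.continuousOn.comp_continuous (Continuous.prodMk_right _) fun t => ⟨hx, mem_univ _⟩

/-- forms pulled back by maps which agree over `[0, 1]` -/
theorem EqI.of_pull {M : Type*} {DM : Dif M} {f g : Y × ℝ → M}
    (hf : (D.prod (Dif.lin ℝ)).Map DM f) (hg : (D.prod (Dif.lin ℝ)).Map DM g)
    (h : ∀ y, ∀ t ∈ Ioo (0 : ℝ) 1, f (y, t) = g (y, t)) (F : Form DM) :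
    EqI (Form.pull f hf F) (Form.pull g hg F) := by
  intro E _ _ _ u x hu
  have h1 : ∀ t ∈ Ioo (0 : ℝ) 1, (Form.pull f hf F).val (Form.cyl u) (x, t) =
      (Form.pull g hg F).val (Form.cyl u) (x, t) := fun t ht => by
    rw [Form.pull_val _ _ (Form.cyl_at hu t), Form.pull_val _ _ (Form.cyl_at hu t)]
    refine F.congr (hf (Form.cyl_at hu t)) ?_
    filter_upwards [(continuous_snd.tendsto (x, t)).eventually (isOpen_Ioo.mem_nhds ht)] with p hp
    exact h _ _ hp
  have h2 : EqOn (fun t : ℝ => (Form.pull f hf F).val (Form.cyl u) (x, t))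
      (fun t : ℝ => (Form.pull g hg F).val (Form.cyl u) (x, t)) (closure (Ioo (0 : ℝ) 1)) :=
    EqOn.closure (fun t ht => h1 t ht) (continuous_val _ hu) (continuous_val _ hu)
  rw [closure_Ioo zero_ne_one] at h2
  exact fun t ht => h2 ht

/-! ### naturality -/

section Nat

variable {Z : Type*} {DZ : Dif Z} {f : Y → Z} (hf : D.Map DZ f)

theorem at_nat (c : ℝ) (w : Form (DZ.prod (Dif.lin ℝ))) :
    at_ c (Form.pull (fun p : Y × ℝ => (f p.1, p.2)) (map_cyl hf) w) = Form.pull f hf (at_ c w) :=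
  (pull_pull (k := fun y => (f y, c)) (Form.map_slice c) (map_cyl hf)
    (fun h => Form.map_slice c (hf h)) (fun _ => rfl) w).trans
    (pull_pull hf (Form.map_slice c) _ (fun _ => rfl) w).symm

theorem self_nat (w : Form (DZ.prod (Dif.lin ℝ))) :
    self (Form.pull (fun p : Y × ℝ => (f p.1, p.2)) (map_cyl hf) w) =
      Form.pull f hf (self w) := by
  have hm : ∀ a b : Form (DZ.prod (Dif.lin ℝ)),
      Form.pull (fun p : Y × ℝ => (f p.1, p.2)) (map_cyl hf) (a * b) =
      Form.pull (fun p : Y × ℝ => (f p.1, p.2)) (map_cyl hf) a *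
      Form.pull (fun p : Y × ℝ => (f p.1, p.2)) (map_cyl hf) b :=
    map_mul (Form.pullA _ (map_cyl hf))
  have hm' : ∀ a b : Form DZ, Form.pull f hf (a * b) = Form.pull f hf a * Form.pull f hf b :=
    map_mul (Form.pullA f hf)
  have ha' : ∀ a b : Form DZ, Form.pull f hf (a + b) = Form.pull f hf a + Form.pull f hf b :=
    map_add (Form.pullA f hf)
  rw [self, self, ha', hm', ← K_nat hf, ← K_nat hf, hm, hm, Pm_nat hf, at_nat hf, pow_two, pow_two,
    hm]

end Nat

/-! ### reparametrisation of time -/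

theorem map_rep {β : ℝ → ℝ} (hβ : ContDiff ℝ ∞ β) :
    (D.prod (Dif.lin ℝ)).Map (D.prod (Dif.lin ℝ)) (fun p : Y × ℝ => (p.1, β p.2)) :=
  fun {E} _ _ _ {u x} h => ⟨h.1, Sm.comp (f := β) (g := fun y => (u y).2)
    (Sm.of_contDiff hβ _) h.2⟩

/-- the integral over a path does not depend on the parametrisation -/
theorem K_rep {β : ℝ → ℝ} (hβ : ContDiff ℝ ∞ β) (w : Form (D.prod (Dif.lin ℝ))) :
    Form.K (Form.pull (fun p : Y × ℝ => (p.1, β p.2)) (map_rep hβ) w) = seg (β 0) (β 1) w :=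
  Form.ext_val fun E _ _ _ u x h => by
    rw [K_val' _ h, seg_val _ _ _ h]
    have hd : ∀ t : ℝ, HasDerivAt β (deriv β t) t := fun t =>
      (hβ.differentiable (by simp) t).hasDerivAt
    have h1 : ∀ t : ℝ, co (Form.pull (fun p : Y × ℝ => (p.1, β p.2)) (map_rep hβ) w) u x t =
        deriv β t • co w u x (β t) := fun t => by
      rw [co, Form.pull_val _ _ (Form.cyl_at h t)]
      let g : E × ℝ → E × ℝ := fun p => (p.1, β p.2)
      have h2 : ((fun p : Y × ℝ => (p.1, β p.2)) ∘ Form.cyl u : E × ℝ → Y × ℝ) =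
        Form.cyl u ∘ g := rfl
      have h3 : Sm g (x, t) := Sm.of_contDiff (contDiff_fst.prodMk (hβ.comp contDiff_snd)) _
      have h4 : HasFDerivAt g ((ContinuousLinearMap.fst ℝ E ℝ).prod
          (deriv β t • ContinuousLinearMap.snd ℝ E ℝ)) (x, t) := by
        refine hasFDerivAt_fst.prodMk ?_
        exact HasDerivAt.comp_hasFDerivAt (h₂ := β) (f := (Prod.snd : E × ℝ → ℝ)) (x, t)
          (hd t) hasFDerivAt_snd
      rw [h2, w.nat (u := Form.cyl u) (g := g) (x := (x, t)) (Form.cyl_at h _) h3, h4.fderiv]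
      have h7 := at1_pull_shear (ContinuousLinearMap.id ℝ E) 0 (deriv β t)
        ((ContinuousLinearMap.fst ℝ E ℝ).prod (deriv β t • ContinuousLinearMap.snd ℝ E ℝ))
        (fun p => by simp) (w.val (Form.cyl u) (x, β t))
      rw [Fm.pull_id] at h7
      exact h7
    simp only [h1]
    exact intervalIntegral.integral_deriv_smul_comp'' hβ.continuous.continuousOn
      (fun t _ => (hd t).hasDerivWithinAt)
      (hβ.continuous_deriv (by simp)).continuousOn (continuous_co w h).continuousOn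

theorem seg_swap (a b : ℝ) (w : Form (D.prod (Dif.lin ℝ))) : seg b a w = -seg a b w :=
  Form.ext_val fun E _ _ _ u x h => by
    rw [Form.neg_val, seg_val _ _ _ h, seg_val _ _ _ h, intervalIntegral.integral_symm]

end Vale.Agent.P231.S3B
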